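import Mathlib
import Vale.Agent.P033.Defs
attribute [-instance] ProperSMul.toContinuousSMul IsTopologicalTorsor.toContinuousSMul IdemSemiring.toCanonicallyOrderedAdd IdemSemiring.toMulLeftMono IdemSemiring.toMulRightMono AddQuantale.instAddLeftMono AddQuantale.instAddRightMono Quantale.instMulLeftMono Quantale.instMulRightMono FiniteDimensional.rclike_to_real IsScalarTower.complexToReal FiniteDimensional.complexToReal

set_option linter.all false

section

section

namespace Vale.Agent.P033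

open Finset

/-- `n` is a Fermat base modulo `q^2`. -/
def Wf (q n : ℕ) : Prop := n ^ (q - 1) ≡ 1 [MOD q ^ 2]

instance (q n : ℕ) : Decidable (Wf q n) := by unfold Wf; infer_instance

/-- Fermat base for all primes dividing `e`. -/
def WfAll (e n : ℕ) : Prop := ∀ q ∈ e.primeFactors, Wf q n

instance (e n : ℕ) : Decidable (WfAll e n) := by unfold WfAll; infer_instance

lemma Wf.mul {q a b : ℕ} (ha : Wf q a) (hb : Wf q b) : Wf q (a * b) := by
  unfold Wf at *
  rw [mul_pow]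
  simpa only [mul_one] using ha.mul hb

lemma Wf.one (q : ℕ) : Wf q 1 := by
  unfold Wf
  simp only [one_pow, Nat.ModEq.refl]

lemma Wf.prod {ι : Type*} {q : ℕ} (s : Finset ι) (f : ι → ℕ) (h : ∀ i ∈ s, Wf q (f i)) :
    Wf q (∏ i ∈ s, f i) := by
  classical
  induction s using Finset.induction_on with
  | empty => simpa using Wf.one q
  | insert a s ha ih =>
    rw [Finset.prod_insert ha]
    exact (h a (Finset.mem_insert_self a s)).mul
      (ih (fun i hi => h i (Finset.mem_insert_of_mem hi)))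

lemma WfAll.prod {ι : Type*} {e : ℕ} (s : Finset ι) (f : ι → ℕ) (h : ∀ i ∈ s, WfAll e (f i)) :
    WfAll e (∏ i ∈ s, f i) := by
  intro q hq
  exact Wf.prod s f (fun i hi => h i hi q hq)

lemma Wf.modEq_sq {q a b : ℕ} (hq : q.Prime) (ha : Wf q a) (hb : Wf q b)
    (h : a ≡ b [MOD q]) : a ≡ b [MOD q ^ 2] := by
  have key : ∀ c : ℕ, Wf q c → c ^ q ≡ c [MOD q ^ 2] := by
    intro c hc
    have h1 : c ^ q = c * c ^ (q - 1) := by
      rw [← pow_succ']
      congr 1
      have := hq.one_lt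
      omega
    rw [h1]
    simpa only [mul_one] using (Nat.ModEq.refl c).mul hc
  have h2 : (a : ℤ) ^ q ≡ (b : ℤ) ^ q [ZMOD ((q ^ 2 : ℕ) : ℤ)] := by
    have h3 : ((q : ℕ) : ℤ) ∣ (a : ℤ) - (b : ℤ) := by
      have := (Nat.modEq_iff_dvd.mp h.symm)
      exact this
    have h4 := dvd_sub_pow_of_dvd_sub h3 1
    simp only [pow_one] at h4
    have h5 : (((q ^ 2 : ℕ) : ℤ)) ∣ (a : ℤ) ^ q - (b : ℤ) ^ q := by
      simpa only [Nat.cast_pow, Nat.reduceAdd] using h4
    exact (Int.modEq_iff_dvd.mpr (by simpa only [Nat.cast_pow] using h5)).symm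
  have h3 : a ^ q ≡ b ^ q [MOD q ^ 2] := by
    rw [← Int.natCast_modEq_iff]
    simpa using h2
  exact ((key a ha).symm.trans h3).trans (key b hb)

lemma WfAll.modEq_sq {e a b : ℕ} (he : Squarefree e) (ha : WfAll e a) (hb : WfAll e b)
    (h : a ≡ b [MOD e]) : a ≡ b [MOD e ^ 2] := by
  have he0 : e ≠ 0 := he.ne_zero
  have h1 : ∀ q ∈ e.primeFactors, ((q : ℤ) ^ 2) ∣ (b : ℤ) - (a : ℤ) := by
    intro q hq
    have hqe : q ∣ e := Nat.dvd_of_mem_primeFactors hq
    have h2 := Wf.modEq_sq (Nat.prime_of_mem_primeFactors hq) (ha q hq) (hb q hq)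
      (h.of_dvd hqe)
    have := (Nat.modEq_iff_dvd.mp h2)
    simpa only [Nat.cast_pow] using this
  have h2 : (∏ q ∈ e.primeFactors, (q : ℤ) ^ 2) ∣ (b : ℤ) - (a : ℤ) := by
    apply Finset.prod_dvd_of_coprime _ h1
    intro x hx y hy hxy
    apply IsCoprime.pow
    rw [Nat.isCoprime_iff_coprime]
    exact (Nat.coprime_primes (Nat.prime_of_mem_primeFactors hx)
      (Nat.prime_of_mem_primeFactors hy)).mpr hxy
  have h3 : (∏ q ∈ e.primeFactors, (q : ℤ) ^ 2) = ((e ^ 2 : ℕ) : ℤ) := by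
    rw [Finset.prod_pow]
    have : ∏ q ∈ e.primeFactors, q = e := Nat.prod_primeFactors_of_squarefree he
    rw [← Nat.cast_prod, this]
    push_cast
    rfl
  rw [h3] at h2
  exact Nat.modEq_iff_dvd.mpr h2

/-- In each block of length `e^2` there are at most `e` members. -/
lemma card_block_le {e : ℕ} (he : Squarefree e) (j : ℕ) (s : Finset ℕ)
    (hs : ∀ n ∈ s, WfAll e n ∧ n / e ^ 2 = j) : s.card ≤ e := by
  have he0 : 0 < e := Nat.pos_of_ne_zero he.ne_zero
  have hinj : Set.InjOn (fun n => n % e) (s : Set ℕ) := by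
    intro a ha b hb hab
    have h1 := WfAll.modEq_sq he (hs a ha).1 (hs b hb).1 hab
    have h2 : a / e ^ 2 = b / e ^ 2 := by rw [(hs a ha).2, (hs b hb).2]
    have h3 : a % e ^ 2 = b % e ^ 2 := h1
    calc a = e ^ 2 * (a / e ^ 2) + a % e ^ 2 := (Nat.div_add_mod a (e ^ 2)).symm
      _ = e ^ 2 * (b / e ^ 2) + b % e ^ 2 := by rw [h2, h3]
      _ = b := Nat.div_add_mod b (e ^ 2)
  calc s.card = (s.image (fun n => n % e)).card := (Finset.card_image_of_injOn hinj).symm
    _ ≤ (Finset.range e).card := by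
        apply Finset.card_le_card
        intro x hx
        rw [Finset.mem_image] at hx
        obtain ⟨a, _, rfl⟩ := hx
        exact Finset.mem_range.mpr (Nat.mod_lt _ he0)
    _ = e := Finset.card_range e

/-- Sum of reciprocals of members beyond `e^2`. -/
lemma sum_inv_WfAll_le {e : ℕ} (he : Squarefree e) (N : ℕ) (s : Finset ℕ)
    (hs : ∀ n ∈ s, WfAll e n ∧ e ^ 2 ≤ n ∧ n ≤ N) :
    ∑ n ∈ s, (1 : ℝ) / n ≤ (1 / e) * (1 + Real.log N) := by
  have he0 : 0 < e := Nat.pos_of_ne_zero he.ne_zero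
  have heR : (0 : ℝ) < e := by exact_mod_cast he0
  by_cases hne : s = ∅
  · subst hne
    simp only [Finset.sum_empty]
    have := Real.log_natCast_nonneg N
    positivity
  obtain ⟨n0, hn0⟩ := Finset.nonempty_iff_ne_empty.mpr hne
  have hN1 : e ^ 2 ≤ N := (hs n0 hn0).2.1.trans (hs n0 hn0).2.2
  -- group by blocks
  have hmaps : ∀ n ∈ s, n / e ^ 2 ∈ Finset.Icc 1 (N / e ^ 2) := by
    intro n hn
    obtain ⟨_, h1, h2⟩ := hs n hn
    rw [Finset.mem_Icc]
    refine ⟨?_, Nat.div_le_div_right h2⟩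
    exact (Nat.one_le_div_iff (by positivity)).mpr h1
  rw [← Finset.sum_fiberwise_of_maps_to hmaps]
  have h1 : ∀ j ∈ Finset.Icc 1 (N / e ^ 2),
      ∑ n ∈ s.filter (fun n => n / e ^ 2 = j), (1 : ℝ) / n ≤ (1 / e) * (1 / j) := by
    intro j hj
    rw [Finset.mem_Icc] at hj
    have hjpos : (0 : ℝ) < j := by
      have : 0 < j := hj.1
      exact_mod_cast this
    have hcard : (s.filter (fun n => n / e ^ 2 = j)).card ≤ e := by
      apply card_block_le he j
      intro n hn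
      rw [Finset.mem_filter] at hn
      exact ⟨(hs n hn.1).1, hn.2⟩
    calc ∑ n ∈ s.filter (fun n => n / e ^ 2 = j), (1 : ℝ) / n
        ≤ ∑ n ∈ s.filter (fun n => n / e ^ 2 = j), (1 : ℝ) / (e ^ 2 * j) := by
          apply Finset.sum_le_sum
          intro n hn
          rw [Finset.mem_filter] at hn
          apply one_div_le_one_div_of_le (by positivity)
          have : e ^ 2 * j ≤ n := by
            rw [← hn.2]
            exact Nat.mul_div_le n (e ^ 2)
          exact_mod_cast this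
      _ = (s.filter (fun n => n / e ^ 2 = j)).card * ((1 : ℝ) / (e ^ 2 * j)) := by
          rw [Finset.sum_const, nsmul_eq_mul]
      _ ≤ e * ((1 : ℝ) / (e ^ 2 * j)) := by
          apply mul_le_mul_of_nonneg_right _ (by (clear * - he0 hjpos; positivity))
          exact_mod_cast hcard
      _ = (1 / e) * (1 / j) := by
          (clear * - hjpos he0; field_simp)
  calc ∑ j ∈ Finset.Icc 1 (N / e ^ 2), ∑ n ∈ s.filter (fun n => n / e ^ 2 = j), (1 : ℝ) / n
      ≤ ∑ j ∈ Finset.Icc 1 (N / e ^ 2), (1 / (e : ℝ)) * (1 / j) := Finset.sum_le_sum h1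
    _ = (1 / (e : ℝ)) * ∑ j ∈ Finset.Icc 1 (N / e ^ 2), (1 / (j : ℝ)) := by
        rw [Finset.mul_sum]
    _ ≤ (1 / (e : ℝ)) * (1 + Real.log N) := by
        apply mul_le_mul_of_nonneg_left _ (by positivity)
        have h2 : ∑ j ∈ Finset.Icc 1 (N / e ^ 2), (1 / (j : ℝ)) = ((harmonic (N / e ^ 2) : ℚ) : ℝ) := by
          rw [harmonic_eq_sum_Icc]
          push_cast
          simp only [one_div]
        rw [h2]
        have h3 := harmonic_le_one_add_log (N / e ^ 2)
        have h4 : Real.log ((N / e ^ 2 : ℕ) : ℝ) ≤ Real.log N := by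
          by_cases h0 : N / e ^ 2 = 0
          · rw [h0]
            simp only [Nat.cast_zero, Real.log_zero]
            exact Real.log_natCast_nonneg N
          · apply Real.log_le_log
            · exact_mod_cast Nat.pos_of_ne_zero h0
            · exact_mod_cast Nat.div_le_self _ _
        linarith only [h3, h4]

end Vale.Agent.P033
end
end

section

section

namespace Vale.Agent.P033

open Finset

lemma card_primeFactors_prod_le {m : ℕ} (g : Fin m → ℕ) (hg : ∀ i, (g i).Prime) :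
    (∏ i, g i).primeFactors.card ≤ m := by
  have h1 : (∏ i, g i).primeFactors ⊆ Finset.univ.image g := by
    intro p hp
    have hpp := Nat.prime_of_mem_primeFactors hp
    have hd := Nat.dvd_of_mem_primeFactors hp
    obtain ⟨i, _, hi⟩ := (hpp.prime.dvd_finsetProd_iff _).mp hd
    rw [Finset.mem_image]
    exact ⟨i, Finset.mem_univ i, ((Nat.prime_dvd_prime_iff_eq hpp (hg i)).mp hi).symm⟩
  calc (∏ i, g i).primeFactors.card ≤ (Finset.univ.image g).card := Finset.card_le_card h1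
    _ ≤ (Finset.univ : Finset (Fin m)).card := Finset.card_image_le
    _ = m := by simp only [card_univ, Fintype.card_fin]

/-- The multi-product bound. -/
lemma sum_inv_pow_le {e : ℕ} (he : Squarefree e) (m y P : ℕ) (hm : 1 ≤ m) (s : Finset ℕ)
    (hs : ∀ p ∈ s, p.Prime ∧ WfAll e p ∧ y ≤ p ∧ p ≤ P) (hy : e ^ 2 ≤ y ^ m) :
    (∑ p ∈ s, (1 : ℝ) / p) ^ m ≤ (m : ℝ) ^ m * ((1 / e) * (1 + m * Real.log P)) := by
  classical
  have he0 : 0 < e := Nat.pos_of_ne_zero he.ne_zero
  set T : Finset (Fin m → ℕ) := Fintype.piFinset (fun _ : Fin m => s) with hT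
  have h1 : (∑ p ∈ s, (1 : ℝ) / p) ^ m = ∑ g ∈ T, (1 : ℝ) / ((∏ i, g i : ℕ) : ℝ) := by
    have h2 : (∑ p ∈ s, (1 : ℝ) / p) ^ m = ∏ _i : Fin m, ∑ p ∈ s, (1 : ℝ) / p := by
      simp only [one_div, prod_const, card_univ, Fintype.card_fin]
    rw [h2, Finset.prod_univ_sum]
    apply Finset.sum_congr rfl
    intro g _
    rw [Nat.cast_prod]
    simp only [one_div]
    rw [Finset.prod_inv_distrib]
  have hTmem : ∀ g ∈ T, ∀ i, g i ∈ s := by
    intro g hg i
    exact (Fintype.mem_piFinset.mp hg) i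
  rw [h1]
  -- group by the product
  set U : Finset ℕ := T.image (fun g => ∏ i, g i) with hU
  have hmaps : ∀ g ∈ T, (∏ i, g i) ∈ U := by
    intro g hg
    exact Finset.mem_image_of_mem _ hg
  rw [← Finset.sum_fiberwise_of_maps_to hmaps]
  have h3 : ∀ n ∈ U, ∑ g ∈ T.filter (fun g => (∏ i, g i) = n), (1 : ℝ) / ((∏ i, g i : ℕ) : ℝ)
      ≤ (m : ℝ) ^ m * (1 / (n : ℝ)) := by
    intro n hn
    have h4 : ∑ g ∈ T.filter (fun g => (∏ i, g i) = n), (1 : ℝ) / ((∏ i, g i : ℕ) : ℝ)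
        = ∑ g ∈ T.filter (fun g => (∏ i, g i) = n), (1 : ℝ) / (n : ℝ) := by
      apply Finset.sum_congr rfl
      intro g hg
      rw [Finset.mem_filter] at hg
      rw [hg.2]
    rw [h4, Finset.sum_const, nsmul_eq_mul]
    apply mul_le_mul_of_nonneg_right _ (by (clear * -; positivity))
    have h5 : T.filter (fun g => (∏ i, g i) = n) ⊆
        Fintype.piFinset (fun _ : Fin m => n.primeFactors) := by
      intro g hg
      rw [Finset.mem_filter] at hg
      rw [Fintype.mem_piFinset]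
      intro i
      have hpi := (hs (g i) (hTmem g hg.1 i)).1
      rw [Nat.mem_primeFactors]
      refine ⟨hpi, ?_, ?_⟩
      · rw [← hg.2]
        exact Finset.dvd_prod_of_mem g (Finset.mem_univ i)
      · rw [← hg.2]
        exact Finset.prod_ne_zero_iff.mpr
          (fun j _ => (hs (g j) (hTmem g hg.1 j)).1.ne_zero)
    have h6 : n.primeFactors.card ≤ m := by
      rw [hU, Finset.mem_image] at hn
      obtain ⟨g, hg, rfl⟩ := hn
      exact card_primeFactors_prod_le g (fun i => (hs (g i) (hTmem g hg i)).1)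
    have h7 := Finset.card_le_card h5
    rw [Fintype.card_piFinset] at h7
    simp only [Finset.prod_const, Finset.card_univ, Fintype.card_fin] at h7
    calc ((T.filter (fun g => (∏ i, g i) = n)).card : ℝ) ≤ ((n.primeFactors.card ^ m : ℕ) : ℝ) := by
          exact_mod_cast h7
      _ ≤ ((m ^ m : ℕ) : ℝ) := by
          exact_mod_cast Nat.pow_le_pow_left h6 m
      _ = (m : ℝ) ^ m := by push_cast; rfl
  calc ∑ n ∈ U, ∑ g ∈ T.filter (fun g => (∏ i, g i) = n), (1 : ℝ) / ((∏ i, g i : ℕ) : ℝ)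
      ≤ ∑ n ∈ U, (m : ℝ) ^ m * (1 / (n : ℝ)) := Finset.sum_le_sum h3
    _ = (m : ℝ) ^ m * ∑ n ∈ U, (1 / (n : ℝ)) := by rw [Finset.mul_sum]
    _ ≤ (m : ℝ) ^ m * ((1 / e) * (1 + m * Real.log P)) := by
        apply mul_le_mul_of_nonneg_left _ (by positivity)
        have h8 := sum_inv_WfAll_le he (P ^ m) U (by
          intro n hn
          rw [hU, Finset.mem_image] at hn
          obtain ⟨g, hg, rfl⟩ := hn
          refine ⟨WfAll.prod _ _ (fun i _ => (hs (g i) (hTmem g hg i)).2.1), ?_, ?_⟩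
          · calc e ^ 2 ≤ y ^ m := hy
              _ = ∏ _i : Fin m, y := by simp only [prod_const, card_univ, Fintype.card_fin]
              _ ≤ ∏ i, g i := Finset.prod_le_prod' (fun i _ => (hs (g i) (hTmem g hg i)).2.2.1)
          · calc ∏ i, g i ≤ ∏ _i : Fin m, P :=
                  Finset.prod_le_prod' (fun i _ => (hs (g i) (hTmem g hg i)).2.2.2)
              _ = P ^ m := by simp)
        have h9 : Real.log ((P ^ m : ℕ) : ℝ) = m * Real.log P := by
          push_cast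
          rw [Real.log_pow]
        rw [h9] at h8
        exact h8

end Vale.Agent.P033
end
end

section

section

namespace Vale.Agent.P033

open Finset

lemma log_two_gt_half : (1 : ℝ) / 2 < Real.log 2 := by
  have := Real.log_two_gt_d9
  linarith only [this]

/-- bound for the sum of reciprocals of Wieferich bases beyond `y`. -/
lemma sum_inv_wieferich_le {q y X : ℕ} (hq : q.Prime) (hy : 2 ≤ y) (hyq : y ≤ q ^ 4)
    (hqX : q ≤ X) (hL : 1 ≤ Real.log X) (s : Finset ℕ)
    (hs : ∀ p ∈ s, p.Prime ∧ Wf q p ∧ y ≤ p ∧ p ≤ X) :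
    ∑ p ∈ s, (1 : ℝ) / p ≤ 40 * Real.log X ^ 3 * (y : ℝ) ^ (-(1 / 4) : ℝ) := by
  set m := Nat.clog y (q ^ 2) with hm
  have hq2 : 2 ≤ q := hq.two_le
  have hq4 : 1 < q ^ 2 := Nat.one_lt_pow (by norm_num) (by omega)
  have hy1 : 1 < y := by omega
  have hmpos : 1 ≤ m := Nat.clog_pos hy1 (by omega)
  have h1 : q ^ 2 ≤ y ^ m := Nat.le_pow_clog hy1 _
  have h2 : y ^ (m - 1) < q ^ 2 := Nat.pow_pred_clog_lt_self hy1 hq4
  have h3 : y ^ m ≤ q ^ 4 := by
    rcases Nat.lt_or_ge m 2 with h | h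
    · have : m = 1 := by omega
      rw [this]
      simpa only [pow_one, ge_iff_le] using hyq
    · calc y ^ m ≤ y ^ (2 * (m - 1)) := Nat.pow_le_pow_right (by omega) (by omega)
        _ = (y ^ (m - 1)) ^ 2 := by rw [mul_comm, pow_mul]
        _ ≤ (q ^ 2) ^ 2 := Nat.pow_le_pow_left h2.le 2
        _ = q ^ 4 := by rw [← pow_mul]
  set L := Real.log X with hLdef
  have hXpos : (0 : ℝ) < X := by
    have : 0 < X := by omega
    exact_mod_cast this
  have hyR : (0 : ℝ) < y := by exact_mod_cast (by omega : 0 < y)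
  have hy2R : (2 : ℝ) ≤ y := by exact_mod_cast hy
  have hqR : (0 : ℝ) < q := by exact_mod_cast hq.pos
  -- bound for m
  have hmL : (m : ℝ) ≤ 1 + 4 * L := by
    have h4 : ((m - 1 : ℕ) : ℝ) * Real.log y ≤ 2 * L := by
      have h5 : Real.log ((y : ℝ) ^ (m - 1)) ≤ Real.log ((q : ℝ) ^ 2) := by
        apply Real.log_le_log (by positivity)
        exact_mod_cast h2.le
      rw [Real.log_pow, Real.log_pow] at h5
      have h6 : Real.log q ≤ L := Real.log_le_log hqR (by exact_mod_cast hqX)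
      push_cast at h5
      linarith only [h5, h6]
    have h5 : Real.log 2 ≤ Real.log y := Real.log_le_log (by norm_num) hy2R
    have h6 : ((m - 1 : ℕ) : ℝ) * (1 / 2) ≤ 2 * L := by
      have h7 : ((m - 1 : ℕ) : ℝ) * (1 / 2) ≤ ((m - 1 : ℕ) : ℝ) * Real.log y := by
        apply mul_le_mul_of_nonneg_left _ (by (clear * -; positivity))
        have := log_two_gt_half
        linarith only [h5, this]
      linarith only [h4, h7]
    have h7 : ((m - 1 : ℕ) : ℝ) = (m : ℝ) - 1 := by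
      rw [Nat.cast_sub hmpos]
      simp
    rw [h7] at h6
    linarith only [h6]
  have hqsf : Squarefree q := (Irreducible.squarefree hq)
  have hmain := sum_inv_pow_le hqsf m y X hmpos s (by
    intro p hp
    obtain ⟨a, b, c, d⟩ := hs p hp
    refine ⟨a, ?_, c, d⟩
    intro r hr
    rw [Nat.Prime.primeFactors hq, Finset.mem_singleton] at hr
    rw [hr]; exact b) h1
  -- compare powers
  set B : ℝ := m * (1 + m * L) * (y : ℝ) ^ (-(1 / 4) : ℝ) with hB
  have hmR : (1 : ℝ) ≤ m := by exact_mod_cast hmpos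
  have hBnn : 0 ≤ B := by (clear * - hmpos hL hy; positivity)
  have hSB : ∑ p ∈ s, (1 : ℝ) / p ≤ B := by
    by_contra hcon
    push Not at hcon
    have h5 : B ^ m < (∑ p ∈ s, (1 : ℝ) / p) ^ m :=
      pow_lt_pow_left₀ hcon hBnn (by omega)
    have h6 : (m : ℝ) ^ m * ((1 / q) * (1 + m * L)) ≤ B ^ m := by
      rw [hB, mul_pow, mul_pow, mul_assoc]
      apply mul_le_mul_of_nonneg_left _ (by (clear * - hmpos; positivity))
      rw [mul_comm]
      apply mul_le_mul
      · apply le_self_pow₀ _ (by omega)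
        nlinarith only [hL]
      · rw [← Real.rpow_natCast, ← Real.rpow_mul hyR.le]
        rw [show (-(1 / 4) : ℝ) * (m : ℕ) = -((m : ℝ) * (1 / 4)) by ring,
          Real.rpow_neg hyR.le, one_div]
        apply inv_anti₀ (by positivity)
        rw [Real.rpow_mul hyR.le, Real.rpow_natCast]
        have h7 : ((y : ℝ) ^ m) ≤ (q : ℝ) ^ 4 := by exact_mod_cast h3
        calc ((y : ℝ) ^ m) ^ (1 / 4 : ℝ) ≤ ((q : ℝ) ^ 4) ^ (1 / 4 : ℝ) :=
              Real.rpow_le_rpow (by positivity) h7 (by norm_num)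
          _ = q := by
              rw [← Real.rpow_natCast, ← Real.rpow_mul hqR.le]
              norm_num
      · positivity
      · (clear * - hmpos hL; positivity)
    linarith only [hmain, h5, h6]
  refine hSB.trans ?_
  rw [hB]
  apply mul_le_mul_of_nonneg_right _ (by positivity)
  have h8 : (m : ℝ) ≤ 5 * L := by linarith only [hL, hmL]
  calc (m : ℝ) * (1 + m * L) ≤ (5 * L) * (1 + 5 * L * L) := by
        apply mul_le_mul h8 _ (by (clear * - hmpos hL; positivity)) (by positivity)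
        have : (m : ℝ) * L ≤ 5 * L * L := mul_le_mul_of_nonneg_right h8 (by linarith only [hL])
        linarith only [this]
    _ ≤ 40 * L ^ 3 := by nlinarith only [mul_nonneg (sub_nonneg.mpr hL) (sq_nonneg L)]

end Vale.Agent.P033
end
end

section

section

namespace Vale.Agent.P033

open Finset

lemma natLog_le {X : ℕ} (hX : 1 ≤ X) : (Nat.log 2 X : ℝ) ≤ 2 * Real.log X := by
  have h1 : (2 : ℝ) ^ (Nat.log 2 X) ≤ X := by
    exact_mod_cast Nat.pow_log_le_self 2 (by omega)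
  have h2 : Real.log ((2 : ℝ) ^ (Nat.log 2 X)) ≤ Real.log X := Real.log_le_log (by positivity) h1
  rw [Real.log_pow] at h2
  have h3 := log_two_gt_half
  have h4 : (Nat.log 2 X : ℝ) * (1 / 2) ≤ (Nat.log 2 X : ℝ) * Real.log 2 :=
    mul_le_mul_of_nonneg_left h3.le (by positivity)
  linarith only [h2, h4]

/-- weighted sum over Wieferich bases `z ≤ p ≤ q^4`. -/
lemma sum_weight_wieferich_le {q z X : ℕ} (hq : q.Prime) (hz : 2 ≤ z)
    (hqX : q ≤ X) (hL : 1 ≤ Real.log X) (s : Finset ℕ)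
    (hs : ∀ p ∈ s, p.Prime ∧ Wf q p ∧ z ≤ p ∧ p ≤ X ∧ p ≤ q ^ 4) :
    ∑ p ∈ s, (p : ℝ) ^ (1 / 8 : ℝ) / p ≤ 240 * Real.log X ^ 4 * (z : ℝ) ^ (-(1 / 8) : ℝ) := by
  set L := Real.log X with hLdef
  have hX1 : 1 ≤ X := by
    by_contra h
    have : X = 0 := by omega
    rw [this] at hLdef
    simp at hLdef
    linarith only [hL, hLdef]
  have hmaps : ∀ p ∈ s, Nat.log 2 p ∈ Finset.Icc (Nat.log 2 z) (Nat.log 2 X) := by
    intro p hp
    obtain ⟨_, _, h3, h4, _⟩ := hs p hp
    rw [Finset.mem_Icc]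
    exact ⟨Nat.log_mono_right h3, Nat.log_mono_right h4⟩
  rw [← Finset.sum_fiberwise_of_maps_to hmaps]
  have hzR : (0 : ℝ) < z := by exact_mod_cast (by omega : 0 < z)
  have h1 : ∀ j ∈ Finset.Icc (Nat.log 2 z) (Nat.log 2 X),
      ∑ p ∈ s.filter (fun p => Nat.log 2 p = j), (p : ℝ) ^ (1 / 8 : ℝ) / p
        ≤ 80 * L ^ 3 * (z : ℝ) ^ (-(1 / 8) : ℝ) := by
    intro j hj
    rw [Finset.mem_Icc] at hj
    by_cases hne : s.filter (fun p => Nat.log 2 p = j) = ∅
    · rw [hne]
      simp only [Finset.sum_empty]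
      positivity
    obtain ⟨p0, hp0⟩ := Finset.nonempty_iff_ne_empty.mpr hne
    rw [Finset.mem_filter] at hp0
    have hj1 : 1 ≤ j := by
      have h5 : Nat.log 2 2 ≤ Nat.log 2 z := Nat.log_mono_right hz
      have h6 : Nat.log 2 2 = 1 := by
        rw [Nat.log_eq_one_iff]; omega
      omega
    have hp0pos : p0 ≠ 0 := (hs p0 hp0.1).1.ne_zero
    have h2j : 2 ^ j ≤ q ^ 4 := by
      have h5 := Nat.pow_log_le_self 2 hp0pos
      rw [hp0.2] at h5
      exact h5.trans (hs p0 hp0.1).2.2.2.2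
    have h2j2 : 2 ≤ 2 ^ j := by
      calc 2 = 2 ^ 1 := by norm_num
        _ ≤ 2 ^ j := Nat.pow_le_pow_right (by norm_num) hj1
    have h5 := sum_inv_wieferich_le hq h2j2 h2j hqX hL (s.filter (fun p => Nat.log 2 p = j)) (by
      intro p hp
      rw [Finset.mem_filter] at hp
      obtain ⟨a, b, c, d, _⟩ := hs p hp.1
      refine ⟨a, b, ?_, d⟩
      have := Nat.pow_log_le_self 2 a.ne_zero
      rw [hp.2] at this
      exact this)
    have hTwo : (0 : ℝ) < (2 : ℝ) ^ j := by positivity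
    calc ∑ p ∈ s.filter (fun p => Nat.log 2 p = j), (p : ℝ) ^ (1 / 8 : ℝ) / p
        ≤ ∑ p ∈ s.filter (fun p => Nat.log 2 p = j), ((2 : ℝ) * 2 ^ j) ^ (1 / 8 : ℝ) * (1 / p) := by
          apply Finset.sum_le_sum
          intro p hp
          rw [Finset.mem_filter] at hp
          rw [div_eq_mul_one_div]
          apply mul_le_mul_of_nonneg_right _ (by (clear * -; positivity))
          apply Real.rpow_le_rpow (by (clear * -; positivity)) _ (by norm_num)
          have := Nat.lt_pow_succ_log_self (b := 2) (by norm_num) p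
          rw [hp.2, Nat.succ_eq_add_one, pow_succ'] at this
          exact_mod_cast this.le
      _ = ((2 : ℝ) * 2 ^ j) ^ (1 / 8 : ℝ) *
            ∑ p ∈ s.filter (fun p => Nat.log 2 p = j), (1 : ℝ) / p := by
          rw [Finset.mul_sum]
      _ ≤ ((2 : ℝ) * 2 ^ j) ^ (1 / 8 : ℝ) * (40 * L ^ 3 * ((2 ^ j : ℕ) : ℝ) ^ (-(1 / 4) : ℝ)) := by
          apply mul_le_mul_of_nonneg_left h5 (by positivity)
      _ = (2 : ℝ) ^ (1 / 8 : ℝ) * (40 * L ^ 3) * ((2 : ℝ) ^ j) ^ (-(1 / 8) : ℝ) := by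
          rw [Real.mul_rpow (by norm_num) (by positivity)]
          push_cast
          have : ((2 : ℝ) ^ j) ^ (-(1 / 8) : ℝ) =
              ((2 : ℝ) ^ j) ^ (1 / 8 : ℝ) * ((2 : ℝ) ^ j) ^ (-(1 / 4) : ℝ) := by
            rw [← Real.rpow_add hTwo]; (clear * -; norm_num)
          rw [this]; ring
      _ ≤ (2 : ℝ) ^ (1 / 8 : ℝ) * (40 * L ^ 3) * ((z : ℝ) / 2) ^ (-(1 / 8) : ℝ) := by
          apply mul_le_mul_of_nonneg_left _ (by positivity)
          apply Real.rpow_le_rpow_of_nonpos (by positivity) _ (by norm_num)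
          have h6 := Nat.lt_pow_succ_log_self (b := 2) (by norm_num) z
          have h7 : 2 ^ (Nat.log 2 z).succ ≤ 2 ^ (j + 1) :=
            Nat.pow_le_pow_right (by norm_num) (by omega)
          have h8 : z ≤ 2 * 2 ^ j := by
            rw [pow_succ'] at h7
            omega
          have h9 : (z : ℝ) ≤ 2 * 2 ^ j := by exact_mod_cast h8
          linarith only [h9]
      _ = ((2 : ℝ) ^ (1 / 8 : ℝ) * (2 : ℝ) ^ (1 / 8 : ℝ)) * (40 * L ^ 3) * (z : ℝ) ^ (-(1 / 8) : ℝ) := by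
          rw [Real.div_rpow hzR.le (by norm_num), Real.rpow_neg (by norm_num : (0:ℝ) ≤ 2),
            div_inv_eq_mul]
          ring
      _ ≤ 2 * (40 * L ^ 3) * (z : ℝ) ^ (-(1 / 8) : ℝ) := by
          apply mul_le_mul_of_nonneg_right _ (by positivity)
          apply mul_le_mul_of_nonneg_right _ (by positivity)
          rw [← Real.rpow_add (by norm_num)]
          calc (2 : ℝ) ^ (1 / 8 + 1 / 8 : ℝ) ≤ (2 : ℝ) ^ (1 : ℝ) :=
                Real.rpow_le_rpow_of_exponent_le (by norm_num) (by norm_num)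
            _ = 2 := by norm_num
      _ = 80 * L ^ 3 * (z : ℝ) ^ (-(1 / 8) : ℝ) := by ring
  calc ∑ j ∈ Finset.Icc (Nat.log 2 z) (Nat.log 2 X),
        ∑ p ∈ s.filter (fun p => Nat.log 2 p = j), (p : ℝ) ^ (1 / 8 : ℝ) / p
      ≤ ∑ _j ∈ Finset.Icc (Nat.log 2 z) (Nat.log 2 X), 80 * L ^ 3 * (z : ℝ) ^ (-(1 / 8) : ℝ) :=
        Finset.sum_le_sum h1
    _ = ((Finset.Icc (Nat.log 2 z) (Nat.log 2 X)).card : ℝ) *
          (80 * L ^ 3 * (z : ℝ) ^ (-(1 / 8) : ℝ)) := by
        rw [Finset.sum_const, nsmul_eq_mul]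
    _ ≤ (3 * L) * (80 * L ^ 3 * (z : ℝ) ^ (-(1 / 8) : ℝ)) := by
        apply mul_le_mul_of_nonneg_right _ (by positivity)
        rw [Nat.card_Icc]
        have h6 := natLog_le hX1
        have h7 : ((Nat.log 2 X + 1 - Nat.log 2 z : ℕ) : ℝ) ≤ (Nat.log 2 X : ℝ) + 1 := by
          exact_mod_cast Nat.sub_le _ _
        linarith only [hL, h6, h7]
    _ = 240 * L ^ 4 * (z : ℝ) ^ (-(1 / 8) : ℝ) := by ring

end Vale.Agent.P033
end
end

section

section

namespace Vale.Agent.P033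

open Finset

lemma prod_primes_dvd_iff (D : Finset ℕ) (hD : ∀ p ∈ D, p.Prime) (n : ℕ) :
    (∏ p ∈ D, p) ∣ n ↔ ∀ p ∈ D, p ∣ n := by
  constructor
  · intro h p hp
    exact (Finset.dvd_prod_of_mem (fun p => p) hp).trans h
  · intro h
    exact Finset.prod_primes_dvd n (fun p hp => (hD p hp).prime) h

/-- Average of a multiplicative weight supported on a finite set of primes. -/
lemma sum_weight_le (P : Finset ℕ) (hP : ∀ p ∈ P, p.Prime) (g : ℕ → ℝ) (hg : ∀ p ∈ P, 1 ≤ g p)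
    (Y : ℕ) :
    ∑ n ∈ Finset.Icc 1 Y, ∏ p ∈ P.filter (fun p => p ∣ n), g p
      ≤ Y * ∏ p ∈ P, (1 + (g p - 1) / p) := by
  classical
  have h1 : ∀ n : ℕ, ∏ p ∈ P.filter (fun p => p ∣ n), g p
      = ∑ D ∈ P.powerset, if (∏ p ∈ D, p) ∣ n then ∏ p ∈ D, (g p - 1) else 0 := by
    intro n
    have h2 : ∏ p ∈ P.filter (fun p => p ∣ n), g p
        = ∏ p ∈ P, (1 + if p ∣ n then g p - 1 else 0) := by
      rw [Finset.prod_filter]
      apply Finset.prod_congr rfl
      intro p _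
      by_cases h : p ∣ n <;> simp [h]
    rw [h2, Finset.prod_one_add]
    apply Finset.sum_congr rfl
    intro D hD
    rw [Finset.mem_powerset] at hD
    by_cases h : (∏ p ∈ D, p) ∣ n
    · rw [if_pos h]
      apply Finset.prod_congr rfl
      intro p hp
      rw [if_pos (((prod_primes_dvd_iff D (fun p hp => hP p (hD hp)) n).mp h) p hp)]
    · rw [if_neg h]
      have h3 : ¬ ∀ p ∈ D, p ∣ n := fun hh =>
        h ((prod_primes_dvd_iff D (fun p hp => hP p (hD hp)) n).mpr hh)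
      push Not at h3
      obtain ⟨p, hp, hpn⟩ := h3
      exact Finset.prod_eq_zero hp (by rw [if_neg hpn])
  have h2 : ∑ n ∈ Finset.Icc 1 Y, ∏ p ∈ P.filter (fun p => p ∣ n), g p
      = ∑ D ∈ P.powerset, ∑ n ∈ Finset.Icc 1 Y,
          if (∏ p ∈ D, p) ∣ n then ∏ p ∈ D, (g p - 1) else 0 := by
    rw [Finset.sum_comm]
    exact Finset.sum_congr rfl (fun n _ => h1 n)
  rw [h2, Finset.prod_one_add, Finset.mul_sum]
  apply Finset.sum_le_sum
  intro D hD
  rw [Finset.mem_powerset] at hD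
  have hnn : 0 ≤ ∏ p ∈ D, (g p - 1) :=
    Finset.prod_nonneg (fun p hp => by linarith [hg p (hD hp)])
  rw [← Finset.sum_filter, Finset.sum_const, nsmul_eq_mul, Finset.prod_div_distrib]
  have hcard : ((Finset.Icc 1 Y).filter (fun n => (∏ p ∈ D, p) ∣ n)).card = Y / (∏ p ∈ D, p) := by
    have h3 : Finset.Icc 1 Y = Finset.Ioc 0 Y := by
      ext x; simp only [mem_Icc, mem_Ioc, Nat.lt_iff_add_one_le, zero_add]
    rw [h3]
    exact Nat.Ioc_filter_dvd_card_eq_div Y _
  rw [hcard]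
  have h4 : ((Y / (∏ p ∈ D, p) : ℕ) : ℝ) ≤ (Y : ℝ) / ((∏ p ∈ D, p : ℕ) : ℝ) := Nat.cast_div_le
  calc ((Y / (∏ p ∈ D, p) : ℕ) : ℝ) * ∏ p ∈ D, (g p - 1)
      ≤ ((Y : ℝ) / ((∏ p ∈ D, p : ℕ) : ℝ)) * ∏ p ∈ D, (g p - 1) :=
        mul_le_mul_of_nonneg_right h4 hnn
    _ = (Y : ℝ) * ((∏ p ∈ D, (g p - 1)) / ∏ p ∈ D, (p : ℝ)) := by
        rw [Nat.cast_prod]; ring

/-- exponential form -/
lemma sum_weight_le_exp (P : Finset ℕ) (hP : ∀ p ∈ P, p.Prime) (g : ℕ → ℝ)
    (hg : ∀ p ∈ P, 1 ≤ g p) (Y : ℕ) :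
    ∑ n ∈ Finset.Icc 1 Y, ∏ p ∈ P.filter (fun p => p ∣ n), g p
      ≤ Y * Real.exp (∑ p ∈ P, (g p - 1) / p) := by
  refine (sum_weight_le P hP g hg Y).trans ?_
  apply mul_le_mul_of_nonneg_left _ (by positivity)
  rw [Real.exp_sum]
  apply Finset.prod_le_prod
  · intro p hp
    have := hg p hp
    have h2 : (0 : ℝ) ≤ (g p - 1) / p := div_nonneg (by linarith) (by positivity)
    linarith only [h2]
  · intro p _
    have := Real.add_one_le_exp ((g p - 1) / p)
    linarith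

/-- averaging over partitions -/
lemma exists_partition (A : Finset ℕ) (φ : ℕ → Finset ℕ → ℝ) (w : ℕ → ℝ)
    (hφ : ∀ p ∈ A, ∀ D ⊆ A.erase p, w p ≤ φ p D + φ p ((A.erase p) \ D)) :
    ∃ D ⊆ A, (1 / 4 : ℝ) * ∑ p ∈ A, w p ≤ ∑ p ∈ A \ D, φ p D := by
  classical
  by_contra hcon
  push Not at hcon
  have h1 : ∑ D ∈ A.powerset, ∑ p ∈ A \ D, φ p D
      < ∑ _D ∈ A.powerset, (1 / 4 : ℝ) * ∑ p ∈ A, w p := by
    apply Finset.sum_lt_sum_of_nonempty ⟨∅, Finset.empty_mem_powerset A⟩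
    intro D hD
    exact hcon D (Finset.mem_powerset.mp hD)
  have h2 : ∑ D ∈ A.powerset, ∑ p ∈ A \ D, φ p D
      = ∑ p ∈ A, ∑ D ∈ (A.erase p).powerset, φ p D := by
    rw [Finset.sum_comm' (t' := A) (s' := fun p => (A.erase p).powerset)]
    intro D p
    simp only [Finset.mem_powerset, Finset.mem_sdiff, Finset.subset_erase]
    (clear * -; tauto)
  have h3 : ∀ p ∈ A, (2 : ℝ) ^ (A.card - 1) * w p ≤ 2 * ∑ D ∈ (A.erase p).powerset, φ p D := by
    intro p hp
    have h4 : ∑ D ∈ (A.erase p).powerset, φ p D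
        = ∑ D ∈ (A.erase p).powerset, φ p ((A.erase p) \ D) := by
      apply Finset.sum_nbij' (fun D => (A.erase p) \ D) (fun D => (A.erase p) \ D)
      · intro D hD
        exact Finset.mem_powerset.mpr Finset.sdiff_subset
      · intro D hD
        exact Finset.mem_powerset.mpr Finset.sdiff_subset
      · intro D hD
        exact Finset.sdiff_sdiff_eq_self (Finset.mem_powerset.mp hD)
      · intro D hD
        exact Finset.sdiff_sdiff_eq_self (Finset.mem_powerset.mp hD)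
      · intro D hD
        rw [Finset.sdiff_sdiff_eq_self (Finset.mem_powerset.mp hD)]
    have h5 : 2 * ∑ D ∈ (A.erase p).powerset, φ p D
        = ∑ D ∈ (A.erase p).powerset, (φ p D + φ p ((A.erase p) \ D)) := by
      rw [Finset.sum_add_distrib, ← h4]; ring
    rw [h5]
    calc (2 : ℝ) ^ (A.card - 1) * w p = ∑ _D ∈ (A.erase p).powerset, w p := by
          rw [Finset.sum_const, Finset.card_powerset, Finset.card_erase_of_mem hp, nsmul_eq_mul]
          push_cast
          ring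
      _ ≤ _ := Finset.sum_le_sum (fun D hD => hφ p hp D (Finset.mem_powerset.mp hD))
  rw [h2] at h1
  rw [Finset.sum_const, Finset.card_powerset, nsmul_eq_mul] at h1
  rcases Finset.eq_empty_or_nonempty A with hA | hA
  · subst hA
    simp only [notMem_empty, not_false_eq_true, erase_eq_of_notMem, powerset_empty, sum_singleton, sum_empty, card_empty, pow_zero, Nat.cast_one, one_div, mul_zero, lt_self_iff_false] at h1
  have hc : 1 ≤ A.card := Finset.card_pos.mpr hA
  have h6 : (2 : ℝ) ^ (A.card - 1) * ∑ p ∈ A, w p ≤ 2 * ∑ p ∈ A, ∑ D ∈ (A.erase p).powerset, φ p D := by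
    rw [Finset.mul_sum, Finset.mul_sum]
    exact Finset.sum_le_sum h3
  have h7 : (2 : ℝ) ^ A.card = 2 * 2 ^ (A.card - 1) := by
    rw [← pow_succ']
    congr 1
    omega
  push_cast at h1
  rw [h7] at h1
  nlinarith only [h6, h1]

end Vale.Agent.P033
end
end

section

section

namespace Vale.Agent.P033

open Finset

lemma two_pow_card_primeFactors_le {n : ℕ} (hn : n ≠ 0) : 2 ^ n.primeFactors.card ≤ n := by
  calc 2 ^ n.primeFactors.card = ∏ _p ∈ n.primeFactors, 2 := by simp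
    _ ≤ ∏ p ∈ n.primeFactors, p :=
        Finset.prod_le_prod' (fun p hp => (Nat.prime_of_mem_primeFactors hp).two_le)
    _ ≤ n := Nat.le_of_dvd (Nat.pos_of_ne_zero hn) (Nat.prod_primeFactors_dvd n)

lemma card_primeFactors_le_log {n X : ℕ} (hn : n ≠ 0) (hX : n ≤ X) :
    (n.primeFactors.card : ℝ) ≤ 2 * Real.log X := by
  have h1 : n.primeFactors.card ≤ Nat.log 2 X := by
    apply Nat.le_log_of_pow_le (by norm_num)
    exact (two_pow_card_primeFactors_le hn).trans hX
  have h2 := natLog_le (X := X) (by omega)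
  have h3 : (n.primeFactors.card : ℝ) ≤ (Nat.log 2 X : ℝ) := by exact_mod_cast h1
  linarith only [h2, h3]

/-- witnesses -/
def Fset (z : ℕ) (D : Finset ℕ) (p : ℕ) : Finset ℕ :=
  D.filter (fun q => z ≤ q ∧ q ≠ p ∧ Wf q p)

def Typ (D : Finset ℕ) (p : ℕ) : Prop := ∃ q ∈ D, p ∣ q - 1

instance (D : Finset ℕ) (p : ℕ) : Decidable (Typ D p) := by unfold Typ; infer_instance

/-- weight of `p` relative to the set of primes `D` -/
noncomputable def gw (z : ℕ) (D : Finset ℕ) (p : ℕ) : ℝ :=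
  if Typ D p then (p : ℝ) ^ (1 / 8 : ℝ)
  else min ((p : ℝ) ^ (1 / 8 : ℝ)) (((∏ q ∈ Fset z D p, q : ℕ) : ℝ) ^ (1 / 2 : ℝ))

lemma one_le_prod_primes {D : Finset ℕ} (hD : ∀ q ∈ D, q.Prime) : 1 ≤ ∏ q ∈ D, q := by
  apply Nat.one_le_iff_ne_zero.mpr
  exact Finset.prod_ne_zero_iff.mpr (fun q hq => (hD q hq).ne_zero)

lemma one_le_gw {z : ℕ} {D : Finset ℕ} {p : ℕ} (hD : ∀ q ∈ D, q.Prime) (hp : 1 ≤ p) :
    1 ≤ gw z D p := by
  have h1 : (1 : ℝ) ≤ (p : ℝ) ^ (1 / 8 : ℝ) :=
    Real.one_le_rpow (by exact_mod_cast hp) (by norm_num)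
  unfold gw
  split_ifs
  · exact h1
  · apply le_min h1
    apply Real.one_le_rpow _ (by norm_num)
    have : 1 ≤ ∏ q ∈ Fset z D p, q :=
      one_le_prod_primes (fun q hq => hD q (Finset.mem_filter.mp hq).1)
    exact_mod_cast this

/-- greedy subset -/
lemma exists_greedy (F : Finset ℕ) (hF : F.Nonempty) (hF1 : ∀ q ∈ F, 1 ≤ q) (p : ℕ)
    (hp : ∀ q ∈ F, q ^ 4 ≤ p) :
    ∃ E ⊆ F, E.Nonempty ∧ (∏ q ∈ E, q) ^ 2 ≤ p ∧ (p ≤ (∏ q ∈ E, q) ^ 4 ∨ E = F) := by
  classical
  set S : Finset (Finset ℕ) := F.powerset.filter (fun E => E.Nonempty ∧ (∏ q ∈ E, q) ^ 2 ≤ p)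
    with hS
  obtain ⟨q0, hq0⟩ := hF
  have hSne : S.Nonempty := by
    refine ⟨{q0}, ?_⟩
    rw [hS, Finset.mem_filter]
    refine ⟨by simpa using hq0, Finset.singleton_nonempty _, ?_⟩
    rw [Finset.prod_singleton]
    exact (Nat.pow_le_pow_right (hF1 q0 hq0) (by norm_num)).trans (hp q0 hq0)
  obtain ⟨E, hE, hmax⟩ := Finset.exists_max_image S (fun E => E.card) hSne
  rw [hS, Finset.mem_filter, Finset.mem_powerset] at hE
  refine ⟨E, hE.1, hE.2.1, hE.2.2, ?_⟩
  by_cases hEF : E = F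
  · exact Or.inr hEF
  left
  obtain ⟨q, hqF, hqE⟩ : ∃ q ∈ F, q ∉ E := by
    by_contra hcon
    push Not at hcon
    exact hEF (Finset.Subset.antisymm hE.1 hcon)
  have h1 : p < (q * ∏ q ∈ E, q) ^ 2 := by
    by_contra hcon
    push Not at hcon
    have h2 : insert q E ∈ S := by
      rw [hS, Finset.mem_filter, Finset.mem_powerset]
      refine ⟨Finset.insert_subset hqF hE.1, Finset.insert_nonempty _ _, ?_⟩
      rw [Finset.prod_insert hqE]
      exact hcon
    have h3 := hmax _ h2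
    rw [Finset.card_insert_of_notMem hqE] at h3
    omega
  have h2 := hp q hqF
  set e := ∏ q ∈ E, q
  by_contra hcon
  push Not at hcon
  -- e^4 < p, q^4 ≤ p, p < (q e)^2
  have h3 : p ^ 2 < (q * e) ^ 4 := by
    calc p ^ 2 < ((q * e) ^ 2) ^ 2 := Nat.pow_lt_pow_left h1 (by norm_num)
      _ = (q * e) ^ 4 := by rw [← pow_mul]
  have h4 : (q * e) ^ 4 ≤ p * p := by
    rw [mul_pow]
    exact Nat.mul_le_mul h2 hcon.le
  rw [pow_two] at h3
  omega

end Vale.Agent.P033
end
end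

section

section

namespace Vale.Agent.P033

open Finset

lemma gw_pointwise {z : ℕ} {D : Finset ℕ} (hD : ∀ q ∈ D, q.Prime) {p : ℕ} (hp : p.Prime) :
    (gw z D p - 1) / p ≤
      (∑ q ∈ D, if p ∣ q - 1 then (p : ℝ) ^ (1 / 8 : ℝ) / p else 0)
      + (∑ q ∈ D, if Wf q p ∧ p ≤ q ^ 4 then (p : ℝ) ^ (1 / 8 : ℝ) / p else 0)
      + (∑ E ∈ (D.filter (fun q => z ≤ q)).powerset.erase ∅,
          if WfAll (∏ q ∈ E, q) p ∧ (∏ q ∈ E, q) ^ 2 ≤ p then
            ((∏ q ∈ E, q : ℕ) : ℝ) ^ (1 / 2 : ℝ) / p else 0) := by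
  classical
  have hp1 : 1 ≤ p := hp.one_lt.le
  have hpR : (0 : ℝ) < p := by exact_mod_cast hp.pos
  have hA1 : ∀ q ∈ D, (0 : ℝ) ≤ (if p ∣ q - 1 then (p : ℝ) ^ (1 / 8 : ℝ) / p else 0) := by
    intro q _
    split_ifs <;> positivity
  have hA2 : ∀ q ∈ D, (0 : ℝ) ≤ (if Wf q p ∧ p ≤ q ^ 4 then (p : ℝ) ^ (1 / 8 : ℝ) / p else 0) := by
    intro q _
    split_ifs <;> positivity
  have hA3 : ∀ E ∈ (D.filter (fun q => z ≤ q)).powerset.erase ∅,
      (0 : ℝ) ≤ (if WfAll (∏ q ∈ E, q) p ∧ (∏ q ∈ E, q) ^ 2 ≤ p then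
            ((∏ q ∈ E, q : ℕ) : ℝ) ^ (1 / 2 : ℝ) / p else 0) := by
    intro E _
    split_ifs <;> positivity
  have hS1 := Finset.sum_nonneg hA1
  have hS2 := Finset.sum_nonneg hA2
  have hS3 := Finset.sum_nonneg hA3
  by_cases hT : Typ D p
  · -- type one
    obtain ⟨q, hqD, hq⟩ := hT
    have hT' : Typ D p := ⟨q, hqD, hq⟩
    have h1 : gw z D p = (p : ℝ) ^ (1 / 8 : ℝ) := by
      unfold gw; rw [if_pos hT']
    have h2 : (p : ℝ) ^ (1 / 8 : ℝ) / p ≤
        ∑ q ∈ D, if p ∣ q - 1 then (p : ℝ) ^ (1 / 8 : ℝ) / p else 0 := by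
      have := Finset.single_le_sum hA1 hqD
      rw [if_pos hq] at this
      exact this
    have h3 : (gw z D p - 1) / p ≤ (p : ℝ) ^ (1 / 8 : ℝ) / p := by
      rw [h1]
      apply div_le_div_of_nonneg_right _ hpR.le
      linarith only []
    linarith only [hS2, hS3, h2, h3]
  · have h1 : gw z D p = min ((p : ℝ) ^ (1 / 8 : ℝ)) (((∏ q ∈ Fset z D p, q : ℕ) : ℝ) ^ (1 / 2 : ℝ)) := by
      unfold gw; rw [if_neg hT]
    by_cases hF : Fset z D p = ∅
    · have h2 : gw z D p ≤ 1 := by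
        rw [h1, hF]
        simp only [one_div, prod_empty, Nat.cast_one, Real.one_rpow, inf_le_right]
      have h3 : (gw z D p - 1) / p ≤ 0 := div_nonpos_of_nonpos_of_nonneg (by linarith only [h2]) hpR.le
      linarith only [hS1, hS2, hS3, h3]
    · have hFne := Finset.nonempty_iff_ne_empty.mpr hF
      by_cases hbig : ∃ q ∈ Fset z D p, p ≤ q ^ 4
      · obtain ⟨q, hqF, hq4⟩ := hbig
        rw [Fset, Finset.mem_filter] at hqF
        have h2 : (p : ℝ) ^ (1 / 8 : ℝ) / p ≤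
            ∑ q ∈ D, if Wf q p ∧ p ≤ q ^ 4 then (p : ℝ) ^ (1 / 8 : ℝ) / p else 0 := by
          have := Finset.single_le_sum hA2 hqF.1
          rw [if_pos ⟨hqF.2.2.2, hq4⟩] at this
          exact this
        have h3 : (gw z D p - 1) / p ≤ (p : ℝ) ^ (1 / 8 : ℝ) / p := by
          apply div_le_div_of_nonneg_right _ hpR.le
          have : gw z D p ≤ (p : ℝ) ^ (1 / 8 : ℝ) := by rw [h1]; exact min_le_left _ _
          linarith only [this]
        linarith only [hS1, hS3, h2, h3]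
      · push Not at hbig
        obtain ⟨E, hEF, hEne, hE2, hE4⟩ := exists_greedy (Fset z D p) hFne
          (fun q hq => (hD q (Finset.mem_filter.mp hq).1).one_lt.le) p
          (fun q hq => (hbig q hq).le)
        have hEmem : E ∈ (D.filter (fun q => z ≤ q)).powerset.erase ∅ := by
          rw [Finset.mem_erase, Finset.mem_powerset]
          refine ⟨Finset.nonempty_iff_ne_empty.mp hEne, ?_⟩
          intro q hq
          have := Finset.mem_filter.mp (hEF hq)
          rw [Finset.mem_filter]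
          exact ⟨this.1, this.2.1⟩
        have hEp : ∀ q ∈ E, q.Prime := fun q hq => hD q (Finset.mem_filter.mp (hEF hq)).1
        have hWA : WfAll (∏ q ∈ E, q) p := by
          intro q hq
          rw [Nat.primeFactors_prod hEp] at hq
          exact (Finset.mem_filter.mp (hEF hq)).2.2.2
        have h2 : ((∏ q ∈ E, q : ℕ) : ℝ) ^ (1 / 2 : ℝ) / p ≤
            ∑ E ∈ (D.filter (fun q => z ≤ q)).powerset.erase ∅,
              if WfAll (∏ q ∈ E, q) p ∧ (∏ q ∈ E, q) ^ 2 ≤ p then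
                ((∏ q ∈ E, q : ℕ) : ℝ) ^ (1 / 2 : ℝ) / p else 0 := by
          have := Finset.single_le_sum hA3 hEmem
          rw [if_pos ⟨hWA, hE2⟩] at this
          exact this
        have h3 : gw z D p ≤ ((∏ q ∈ E, q : ℕ) : ℝ) ^ (1 / 2 : ℝ) := by
          rw [h1]
          rcases hE4 with h4 | h4
          · refine (min_le_left _ _).trans ?_
            have h5 : (p : ℝ) ≤ (((∏ q ∈ E, q : ℕ) : ℝ)) ^ (4 : ℕ) := by exact_mod_cast h4
            calc (p : ℝ) ^ (1 / 8 : ℝ) ≤ ((((∏ q ∈ E, q : ℕ) : ℝ)) ^ (4 : ℕ)) ^ (1 / 8 : ℝ) :=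
                  Real.rpow_le_rpow hpR.le h5 (by norm_num)
              _ = ((∏ q ∈ E, q : ℕ) : ℝ) ^ (1 / 2 : ℝ) := by
                  rw [← Real.rpow_natCast, ← Real.rpow_mul (by (clear * -; positivity))]
                  norm_num
          · rw [h4]
            exact min_le_right _ _
        have h4 : (gw z D p - 1) / p ≤ ((∏ q ∈ E, q : ℕ) : ℝ) ^ (1 / 2 : ℝ) / p := by
          apply div_le_div_of_nonneg_right _ hpR.le
          linarith only [h3]
        linarith only [hS1, hS2, h2, h4]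

lemma key_lemma_K {X z : ℕ} (hz : 2 ≤ z) (hL : 1 ≤ Real.log X) (D : Finset ℕ)
    (hD : ∀ q ∈ D, q.Prime ∧ q ≤ X) (hDc : (D.card : ℝ) ≤ 2 * Real.log X) :
    ∑ p ∈ (Finset.Icc z X).filter Nat.Prime, (gw z D p - 1) / p ≤
      4 * Real.log X ^ 2 * (z : ℝ) ^ (-(7 / 8) : ℝ)
      + 480 * Real.log X ^ 5 * (z : ℝ) ^ (-(1 / 8) : ℝ)
      + (1 + Real.log X) * (Real.exp (2 * Real.log X * (z : ℝ) ^ (-(1 / 2) : ℝ)) - 1) := by
  classical
  set L := Real.log X with hLdef
  set P := (Finset.Icc z X).filter Nat.Prime with hP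
  have hPp : ∀ p ∈ P, p.Prime ∧ z ≤ p ∧ p ≤ X := by
    intro p hp
    rw [hP, Finset.mem_filter, Finset.mem_Icc] at hp
    exact ⟨hp.2, hp.1.1, hp.1.2⟩
  have hzR : (0 : ℝ) < z := by exact_mod_cast (by omega : 0 < z)
  have hDp : ∀ q ∈ D, q.Prime := fun q hq => (hD q hq).1
  refine (Finset.sum_le_sum (fun p hp => gw_pointwise (z := z) hDp (hPp p hp).1)).trans ?_
  rw [Finset.sum_add_distrib, Finset.sum_add_distrib]
  have hT1 : ∑ p ∈ P, ∑ q ∈ D, (if p ∣ q - 1 then (p : ℝ) ^ (1 / 8 : ℝ) / p else 0)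
      ≤ 4 * L ^ 2 * (z : ℝ) ^ (-(7 / 8) : ℝ) := by
    rw [Finset.sum_comm]
    have h1 : ∀ q ∈ D, ∑ p ∈ P, (if p ∣ q - 1 then (p : ℝ) ^ (1 / 8 : ℝ) / p else 0)
        ≤ (2 * L) * (z : ℝ) ^ (-(7 / 8) : ℝ) := by
      intro q hq
      rw [← Finset.sum_filter]
      have hq1 : q - 1 ≠ 0 := by
        have := (hD q hq).1.two_le
        omega
      calc ∑ p ∈ P.filter (fun p => p ∣ q - 1), (p : ℝ) ^ (1 / 8 : ℝ) / p
          ≤ ∑ p ∈ P.filter (fun p => p ∣ q - 1), (z : ℝ) ^ (-(7 / 8) : ℝ) := by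
            apply Finset.sum_le_sum
            intro p hp
            rw [Finset.mem_filter] at hp
            have hpp := hPp p hp.1
            have hpR : (0 : ℝ) < p := by exact_mod_cast hpp.1.pos
            have h2 : (p : ℝ) ^ (1 / 8 : ℝ) / p = (p : ℝ) ^ (-(7 / 8) : ℝ) := by
              rw [← Real.rpow_sub_one hpR.ne']
              norm_num
            rw [h2]
            apply Real.rpow_le_rpow_of_nonpos hzR _ (by norm_num)
            exact_mod_cast hpp.2.1
        _ = ((P.filter (fun p => p ∣ q - 1)).card : ℝ) * (z : ℝ) ^ (-(7 / 8) : ℝ) := by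
            rw [Finset.sum_const, nsmul_eq_mul]
        _ ≤ (2 * L) * (z : ℝ) ^ (-(7 / 8) : ℝ) := by
            apply mul_le_mul_of_nonneg_right _ (by positivity)
            have h3 : (P.filter (fun p => p ∣ q - 1)) ⊆ (q - 1).primeFactors := by
              intro p hp
              rw [Finset.mem_filter] at hp
              rw [Nat.mem_primeFactors]
              exact ⟨(hPp p hp.1).1, hp.2, hq1⟩
            have h4 := card_primeFactors_le_log (n := q - 1) (X := X) hq1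
              ((Nat.sub_le _ _).trans (hD q hq).2)
            have h5 : ((P.filter (fun p => p ∣ q - 1)).card : ℝ) ≤ ((q - 1).primeFactors.card : ℝ) := by
              exact_mod_cast Finset.card_le_card h3
            linarith only [h4, h5]
    calc ∑ q ∈ D, ∑ p ∈ P, (if p ∣ q - 1 then (p : ℝ) ^ (1 / 8 : ℝ) / p else 0)
        ≤ ∑ _q ∈ D, (2 * L) * (z : ℝ) ^ (-(7 / 8) : ℝ) := Finset.sum_le_sum h1
      _ = (D.card : ℝ) * ((2 * L) * (z : ℝ) ^ (-(7 / 8) : ℝ)) := by
          rw [Finset.sum_const, nsmul_eq_mul]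
      _ ≤ (2 * L) * ((2 * L) * (z : ℝ) ^ (-(7 / 8) : ℝ)) :=
          mul_le_mul_of_nonneg_right hDc (by positivity)
      _ = 4 * L ^ 2 * (z : ℝ) ^ (-(7 / 8) : ℝ) := by ring
  have hT2 : ∑ p ∈ P, ∑ q ∈ D, (if Wf q p ∧ p ≤ q ^ 4 then (p : ℝ) ^ (1 / 8 : ℝ) / p else 0)
      ≤ 480 * L ^ 5 * (z : ℝ) ^ (-(1 / 8) : ℝ) := by
    rw [Finset.sum_comm]
    have h1 : ∀ q ∈ D, ∑ p ∈ P, (if Wf q p ∧ p ≤ q ^ 4 then (p : ℝ) ^ (1 / 8 : ℝ) / p else 0)
        ≤ 240 * L ^ 4 * (z : ℝ) ^ (-(1 / 8) : ℝ) := by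
      intro q hq
      rw [← Finset.sum_filter]
      apply sum_weight_wieferich_le (hD q hq).1 hz (hD q hq).2 hL
      intro p hp
      rw [Finset.mem_filter] at hp
      obtain ⟨a, b, c⟩ := hPp p hp.1
      exact ⟨a, hp.2.1, b, c, hp.2.2⟩
    calc ∑ q ∈ D, ∑ p ∈ P, (if Wf q p ∧ p ≤ q ^ 4 then (p : ℝ) ^ (1 / 8 : ℝ) / p else 0)
        ≤ ∑ _q ∈ D, 240 * L ^ 4 * (z : ℝ) ^ (-(1 / 8) : ℝ) := Finset.sum_le_sum h1
      _ = (D.card : ℝ) * (240 * L ^ 4 * (z : ℝ) ^ (-(1 / 8) : ℝ)) := by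
          rw [Finset.sum_const, nsmul_eq_mul]
      _ ≤ (2 * L) * (240 * L ^ 4 * (z : ℝ) ^ (-(1 / 8) : ℝ)) :=
          mul_le_mul_of_nonneg_right hDc (by positivity)
      _ = 480 * L ^ 5 * (z : ℝ) ^ (-(1 / 8) : ℝ) := by ring
  have hT3 : ∑ p ∈ P, ∑ E ∈ (D.filter (fun q => z ≤ q)).powerset.erase ∅,
          (if WfAll (∏ q ∈ E, q) p ∧ (∏ q ∈ E, q) ^ 2 ≤ p then
            ((∏ q ∈ E, q : ℕ) : ℝ) ^ (1 / 2 : ℝ) / p else 0)
      ≤ (1 + L) * (Real.exp (2 * L * (z : ℝ) ^ (-(1 / 2) : ℝ)) - 1) := by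
    rw [Finset.sum_comm]
    set Dz := D.filter (fun q => z ≤ q) with hDz
    have h1 : ∀ E ∈ Dz.powerset.erase ∅,
        ∑ p ∈ P, (if WfAll (∏ q ∈ E, q) p ∧ (∏ q ∈ E, q) ^ 2 ≤ p then
            ((∏ q ∈ E, q : ℕ) : ℝ) ^ (1 / 2 : ℝ) / p else 0)
        ≤ (1 + L) * ∏ q ∈ E, (q : ℝ) ^ (-(1 / 2) : ℝ) := by
      intro E hE
      rw [Finset.mem_erase, Finset.mem_powerset] at hE
      have hEp : ∀ q ∈ E, q.Prime := fun q hq =>
        (hD q (Finset.mem_filter.mp (hE.2 hq)).1).1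
      set e := ∏ q ∈ E, q with he
      have he1 : 1 ≤ e := one_le_prod_primes hEp
      have heR : (0 : ℝ) < e := by exact_mod_cast he1
      have hesf : Squarefree e := by
        rw [he]
        refine Finset.squarefree_prod_of_pairwise_isCoprime (fun i hi j hj hij ↦ ?_)
          fun i hi ↦ Irreducible.squarefree (hEp i hi)
        exact Nat.coprime_iff_isRelPrime.mp ((Nat.coprime_primes (hEp i hi) (hEp j hj)).mpr hij)
      rw [← Finset.sum_filter]
      have h2 := sum_inv_WfAll_le hesf X (P.filter (fun p => WfAll e p ∧ e ^ 2 ≤ p)) (by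
        intro p hp
        rw [Finset.mem_filter] at hp
        exact ⟨hp.2.1, hp.2.2, (hPp p hp.1).2.2⟩)
      calc ∑ p ∈ P.filter (fun p => WfAll e p ∧ e ^ 2 ≤ p), (e : ℝ) ^ (1 / 2 : ℝ) / p
          = (e : ℝ) ^ (1 / 2 : ℝ) * ∑ p ∈ P.filter (fun p => WfAll e p ∧ e ^ 2 ≤ p), (1 : ℝ) / p := by
            rw [Finset.mul_sum]
            apply Finset.sum_congr rfl
            intro p _
            ring
        _ ≤ (e : ℝ) ^ (1 / 2 : ℝ) * ((1 / e) * (1 + L)) :=
            mul_le_mul_of_nonneg_left h2 (by (clear * - he1; positivity))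
        _ = (1 + L) * (e : ℝ) ^ (-(1 / 2) : ℝ) := by
            have h3 : (e : ℝ) ^ (-(1 / 2) : ℝ) = (e : ℝ) ^ (1 / 2 : ℝ) / e := by
              rw [← Real.rpow_sub_one heR.ne']
              norm_num
            rw [h3]; ring
        _ = (1 + L) * ∏ q ∈ E, (q : ℝ) ^ (-(1 / 2) : ℝ) := by
            congr 1
            rw [he, Nat.cast_prod, ← Real.finsetProd_rpow]
            intro i _
            (clear * -; positivity)
    calc ∑ E ∈ Dz.powerset.erase ∅, ∑ p ∈ P, (if WfAll (∏ q ∈ E, q) p ∧ (∏ q ∈ E, q) ^ 2 ≤ p then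
            ((∏ q ∈ E, q : ℕ) : ℝ) ^ (1 / 2 : ℝ) / p else 0)
        ≤ ∑ E ∈ Dz.powerset.erase ∅, (1 + L) * ∏ q ∈ E, (q : ℝ) ^ (-(1 / 2) : ℝ) :=
          Finset.sum_le_sum h1
      _ = (1 + L) * (∑ E ∈ Dz.powerset, ∏ q ∈ E, (q : ℝ) ^ (-(1 / 2) : ℝ) - 1) := by
          rw [← Finset.mul_sum]
          congr 1
          rw [← Finset.add_sum_erase Dz.powerset (fun E => ∏ q ∈ E, (q : ℝ) ^ (-(1 / 2) : ℝ))
            (Finset.empty_mem_powerset Dz)]
          simp only [one_div, mem_powerset, empty_subset, sum_erase_eq_sub, prod_empty, add_sub_cancel]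
      _ ≤ (1 + L) * (Real.exp (2 * L * (z : ℝ) ^ (-(1 / 2) : ℝ)) - 1) := by
          apply mul_le_mul_of_nonneg_left _ (by linarith only [hL])
          apply sub_le_sub_right
          rw [← Finset.prod_one_add]
          calc ∏ q ∈ Dz, (1 + (q : ℝ) ^ (-(1 / 2) : ℝ))
              ≤ ∏ q ∈ Dz, Real.exp ((z : ℝ) ^ (-(1 / 2) : ℝ)) := by
                apply Finset.prod_le_prod
                · intro q _; (clear * -; positivity)
                · intro q hq
                  rw [hDz, Finset.mem_filter] at hq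
                  have h4 : (q : ℝ) ^ (-(1 / 2) : ℝ) ≤ (z : ℝ) ^ (-(1 / 2) : ℝ) := by
                    apply Real.rpow_le_rpow_of_nonpos hzR _ (by norm_num)
                    exact_mod_cast hq.2
                  have h5 := Real.add_one_le_exp ((z : ℝ) ^ (-(1 / 2) : ℝ))
                  linarith only [h4, h5]
            _ = Real.exp ((Dz.card : ℝ) * (z : ℝ) ^ (-(1 / 2) : ℝ)) := by
                rw [Finset.prod_const, ← Real.exp_nat_mul]
            _ ≤ Real.exp (2 * L * (z : ℝ) ^ (-(1 / 2) : ℝ)) := by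
                apply Real.exp_le_exp.mpr
                apply mul_le_mul_of_nonneg_right _ (by positivity)
                have h6 : (Dz.card : ℝ) ≤ D.card := by
                  exact_mod_cast Finset.card_le_card (Finset.filter_subset _ _)
                linarith only [hDc, h6]
  linarith

end Vale.Agent.P033
end
end

section

section

namespace Vale.Agent.P033

open Finset

lemma min_mul_le {a x y : ℝ} (ha : 1 ≤ a) (hx : 1 ≤ x) (hy : 1 ≤ y) :
    min a (x * y) ≤ min a x * min a y := by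
  rcases le_total a x with h1 | h1
  · rw [min_eq_left h1]
    have h2 : 1 ≤ min a y := le_min ha hy
    calc min a (x * y) ≤ a := min_le_left _ _
      _ = a * 1 := by ring
      _ ≤ a * min a y := mul_le_mul_of_nonneg_left h2 (by linarith)
  · rw [min_eq_right h1]
    rcases le_total a y with h3 | h3
    · rw [min_eq_left h3]
      calc min a (x * y) ≤ a := min_le_left _ _
        _ = 1 * a := by ring
        _ ≤ x * a := mul_le_mul_of_nonneg_right hx (by linarith)
    · rw [min_eq_right h3]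
      exact min_le_right _ _

lemma gw_mul {z : ℕ} {B D : Finset ℕ} (hB : ∀ q ∈ B, q.Prime) (hDB : D ⊆ B) {p : ℕ}
    (hp : 1 ≤ p) : gw z B p ≤ gw z D p * gw z (B \ D) p := by
  classical
  have hD : ∀ q ∈ D, q.Prime := fun q hq => hB q (hDB hq)
  have hBD : ∀ q ∈ B \ D, q.Prime := fun q hq => hB q (Finset.mem_sdiff.mp hq).1
  have h1 := one_le_gw (z := z) hD hp
  have h2 := one_le_gw (z := z) hBD hp
  have ha : (1 : ℝ) ≤ (p : ℝ) ^ (1 / 8 : ℝ) :=
    Real.one_le_rpow (by exact_mod_cast hp) (by norm_num)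
  by_cases hT : Typ B p
  · have h3 : gw z B p = (p : ℝ) ^ (1 / 8 : ℝ) := by unfold gw; rw [if_pos hT]
    obtain ⟨q, hq, hpq⟩ := hT
    by_cases hqD : q ∈ D
    · have h4 : gw z D p = (p : ℝ) ^ (1 / 8 : ℝ) := by
        unfold gw; rw [if_pos ⟨q, hqD, hpq⟩]
      rw [h3, h4]
      nlinarith only [h2, ha]
    · have h4 : gw z (B \ D) p = (p : ℝ) ^ (1 / 8 : ℝ) := by
        unfold gw; rw [if_pos ⟨q, Finset.mem_sdiff.mpr ⟨hq, hqD⟩, hpq⟩]
      rw [h3, h4]
      nlinarith only [h1, ha]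
  · have hT1 : ¬ Typ D p := fun ⟨q, hq, h⟩ => hT ⟨q, hDB hq, h⟩
    have hT2 : ¬ Typ (B \ D) p := fun ⟨q, hq, h⟩ => hT ⟨q, (Finset.mem_sdiff.mp hq).1, h⟩
    have e1 : gw z B p = min ((p : ℝ) ^ (1 / 8 : ℝ)) (((∏ q ∈ Fset z B p, q : ℕ) : ℝ) ^ (1 / 2 : ℝ)) := by
      unfold gw; rw [if_neg hT]
    have e2 : gw z D p = min ((p : ℝ) ^ (1 / 8 : ℝ)) (((∏ q ∈ Fset z D p, q : ℕ) : ℝ) ^ (1 / 2 : ℝ)) := by
      unfold gw; rw [if_neg hT1]
    have e3 : gw z (B \ D) p = min ((p : ℝ) ^ (1 / 8 : ℝ)) (((∏ q ∈ Fset z (B \ D) p, q : ℕ) : ℝ) ^ (1 / 2 : ℝ)) := by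
      unfold gw; rw [if_neg hT2]
    have e4 : ∏ q ∈ Fset z B p, q = (∏ q ∈ Fset z D p, q) * ∏ q ∈ Fset z (B \ D) p, q := by
      rw [← Finset.prod_union]
      · apply Finset.prod_congr _ (fun _ _ => rfl)
        unfold Fset
        rw [← Finset.filter_union, Finset.union_sdiff_of_subset hDB]
      · unfold Fset
        apply Finset.disjoint_filter_filter
        exact Finset.disjoint_sdiff
    rw [e1, e2, e3, e4]
    have hx : (1 : ℝ) ≤ ((∏ q ∈ Fset z D p, q : ℕ) : ℝ) ^ (1 / 2 : ℝ) := by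
      apply Real.one_le_rpow _ (by norm_num)
      exact_mod_cast one_le_prod_primes (fun q hq => hD q (Finset.mem_filter.mp hq).1)
    have hy : (1 : ℝ) ≤ ((∏ q ∈ Fset z (B \ D) p, q : ℕ) : ℝ) ^ (1 / 2 : ℝ) := by
      apply Real.one_le_rpow _ (by norm_num)
      exact_mod_cast one_le_prod_primes (fun q hq => hBD q (Finset.mem_filter.mp hq).1)
    have := min_mul_le ha hx hy
    rw [Nat.cast_mul, Real.mul_rpow (by (clear * -; positivity)) (by (clear * -; positivity))]
    exact this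

/-- total weight -/
noncomputable def GG (z m : ℕ) : ℝ :=
  ∏ p ∈ m.primeFactors.filter (fun p => z ≤ p), gw z (m.primeFactors.erase p) p

/-- decomposition of `m` along a set `D` of its primes -/
lemma exists_decomp {X z m : ℕ} (hm : m ∈ Finset.Icc 1 X) {Y : ℝ} (hY : 1 ≤ Y)
    (hG : Y ≤ GG z m) :
    ∃ t c : ℕ, t * c = m ∧ 1 ≤ t ∧ 1 ≤ c ∧
      Y ^ (1 / 4 : ℝ) ≤ ∏ p ∈ ((Finset.Icc z X).filter Nat.Prime).filter (fun p => p ∣ c),
        gw z t.primeFactors p := by
  classical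
  rw [Finset.mem_Icc] at hm
  have hm0 : m ≠ 0 := by omega
  set A := m.primeFactors with hA
  have hAp : ∀ p ∈ A, p.Prime := fun p hp => Nat.prime_of_mem_primeFactors hp
  set φ : ℕ → Finset ℕ → ℝ := fun p D => if z ≤ p then Real.log (gw z D p) else 0 with hφ
  set w : ℕ → ℝ := fun p => if z ≤ p then Real.log (gw z (A.erase p) p) else 0 with hw
  obtain ⟨D, hDA, hD⟩ := exists_partition A φ w (by
    intro p hp D hD
    simp only [hφ, hw]
    by_cases hz : z ≤ p
    · simp only [if_pos hz]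
      have hB : ∀ q ∈ A.erase p, q.Prime := fun q hq => hAp q (Finset.mem_of_mem_erase hq)
      have hp1 : 1 ≤ p := (hAp p hp).one_lt.le
      have h1 := one_le_gw (z := z) (D := D) (fun q hq => hB q (hD hq)) hp1
      have h2 := one_le_gw (z := z) (D := (A.erase p) \ D)
        (fun q hq => hB q (Finset.mem_sdiff.mp hq).1) hp1
      have h3 := one_le_gw (z := z) hB hp1
      rw [← Real.log_mul (by linarith only [h1]) (by linarith only [h2])]
      exact Real.log_le_log (by linarith only [h3]) (gw_mul hB hD hp1)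
    · simp only [if_neg hz]
      norm_num)
  set t := ∏ q ∈ D, q ^ m.factorization q with ht
  set c := ∏ q ∈ A \ D, q ^ m.factorization q with hc
  have hprimeD : ∀ q ∈ D, q.Prime := fun q hq => hAp q (hDA hq)
  have htc : t * c = m := by
    rw [ht, hc, mul_comm, Finset.prod_sdiff hDA]
    exact Nat.prod_factorization_pow_eq_self hm0
  have ht0 : t ≠ 0 := by
    intro h; rw [h, zero_mul] at htc; exact hm0 htc.symm
  have hc0 : c ≠ 0 := by
    intro h; rw [h, mul_zero] at htc; exact hm0 htc.symm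
  have key : ∀ B ⊆ A, ∀ p : ℕ, p.Prime → (p ∣ ∏ q ∈ B, q ^ m.factorization q ↔ p ∈ B) := by
    intro B hB p hp
    rw [hp.prime.dvd_finsetProd_iff]
    constructor
    · rintro ⟨q, hq, hpq⟩
      have h1 := hp.dvd_of_dvd_pow hpq
      have h2 := (Nat.prime_dvd_prime_iff_eq hp (hAp q (hB hq))).mp h1
      rw [h2]; exact hq
    · intro hpB
      refine ⟨p, hpB, dvd_pow_self p ?_⟩
      have h1 := hB hpB
      rw [hA, Nat.mem_primeFactors] at h1
      exact (h1.1.factorization_pos_of_dvd h1.2.2 h1.2.1).ne'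
  have htD : t.primeFactors = D := by
    ext p
    rw [Nat.mem_primeFactors]
    constructor
    · rintro ⟨hp, hd, _⟩
      exact (key D hDA p hp).mp hd
    · intro hp
      exact ⟨hprimeD p hp, (key D hDA p (hprimeD p hp)).mpr hp, ht0⟩
  refine ⟨t, c, htc, Nat.one_le_iff_ne_zero.mpr ht0, Nat.one_le_iff_ne_zero.mpr hc0, ?_⟩
  rw [htD]
  have hset : ((Finset.Icc z X).filter Nat.Prime).filter (fun p => p ∣ c)
      = (A \ D).filter (fun p => z ≤ p) := by
    ext p
    simp only [Finset.mem_filter, Finset.mem_Icc]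
    constructor
    · rintro ⟨⟨⟨h1, h2⟩, hp⟩, hd⟩
      exact ⟨(key (A \ D) Finset.sdiff_subset p hp).mp hd, h1⟩
    · rintro ⟨hp, hz⟩
      have hpA := (Finset.mem_sdiff.mp hp).1
      have hpp := hAp p hpA
      refine ⟨⟨⟨hz, ?_⟩, hpp⟩, (key (A \ D) Finset.sdiff_subset p hpp).mpr hp⟩
      exact (Nat.le_of_dvd (by omega) (Nat.dvd_of_mem_primeFactors hpA)).trans hm.2
  rw [hset]
  have hgpos : ∀ p ∈ (A \ D).filter (fun p => z ≤ p), (1 : ℝ) ≤ gw z D p := by
    intro p hp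
    exact one_le_gw hprimeD (hAp p (Finset.mem_sdiff.mp (Finset.mem_filter.mp hp).1).1).one_lt.le
  have hgpos2 : ∀ p ∈ A.filter (fun p => z ≤ p), (1 : ℝ) ≤ gw z (A.erase p) p := by
    intro p hp
    exact one_le_gw (fun q hq => hAp q (Finset.mem_of_mem_erase hq))
      (hAp p (Finset.mem_filter.mp hp).1).one_lt.le
  have hlog1 : Real.log (∏ p ∈ (A \ D).filter (fun p => z ≤ p), gw z D p)
      = ∑ p ∈ A \ D, φ p D := by
    rw [Real.log_prod (fun p hp => by linarith only [hgpos p hp]), Finset.sum_filter]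
  have hlog2 : Real.log (GG z m) = ∑ p ∈ A, w p := by
    unfold GG
    rw [Real.log_prod (fun p hp => by linarith only [hgpos2 p hp]), Finset.sum_filter]
  have hprodpos : 0 < ∏ p ∈ (A \ D).filter (fun p => z ≤ p), gw z D p :=
    Finset.prod_pos (fun p hp => by linarith only [hgpos p hp])
  rw [← Real.log_le_log_iff (by positivity) hprodpos, hlog1, Real.log_rpow (by linarith only [hY])]
  have h5 : Real.log Y ≤ Real.log (GG z m) := Real.log_le_log (by linarith only [hY]) hG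
  rw [hlog2] at h5
  linarith only [hD, h5]

end Vale.Agent.P033
end
end

section

section

namespace Vale.Agent.P033

open Finset

theorem count_GG {X z : ℕ} (κ : ℝ)
    (hκ : ∀ D : Finset ℕ, (∀ q ∈ D, q.Prime ∧ q ≤ X) → (D.card : ℝ) ≤ 2 * Real.log X →
      ∑ p ∈ (Finset.Icc z X).filter Nat.Prime, (gw z D p - 1) / p ≤ κ)
    (Y : ℝ) (hY : 1 ≤ Y) :
    (((Finset.Icc 1 X).filter (fun m => Y ≤ GG z m)).card : ℝ)
      ≤ X * (1 + Real.log X) * Real.exp κ * Y ^ (-(1 / 4) : ℝ) := by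
  classical
  set S := (Finset.Icc 1 X).filter (fun m => Y ≤ GG z m) with hS
  set P := (Finset.Icc z X).filter Nat.Prime with hP
  set H : ℕ → ℕ → ℝ := fun t c => ∏ p ∈ P.filter (fun p => p ∣ c), gw z t.primeFactors p with hH
  -- choose decompositions
  have hdec : ∀ m : ℕ, ∃ tc : ℕ × ℕ, m ∈ S → tc.1 * tc.2 = m ∧ 1 ≤ tc.1 ∧ 1 ≤ tc.2 ∧
      Y ^ (1 / 4 : ℝ) ≤ H tc.1 tc.2 := by
    intro m
    by_cases hm : m ∈ S
    · rw [hS, Finset.mem_filter] at hm
      obtain ⟨t, c, h1, h2, h3, h4⟩ := exists_decomp hm.1 hY hm.2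
      exact ⟨(t, c), fun _ => ⟨h1, h2, h3, h4⟩⟩
    · exact ⟨(1, 1), fun h => absurd h hm⟩
  choose f hf using hdec
  set T : Finset (Σ _ : ℕ, ℕ) := (Finset.Icc 1 X).sigma
    (fun t => (Finset.Icc 1 (X / t)).filter (fun c => Y ^ (1 / 4 : ℝ) ≤ H t c)) with hT
  have hcard : S.card ≤ T.card := by
    apply Finset.card_le_card_of_injOn (fun m => (⟨(f m).1, (f m).2⟩ : Σ _ : ℕ, ℕ))
    · intro m hm
      have hm' : m ∈ S := hm
      obtain ⟨h1, h2, h3, h4⟩ := hf m hm'
      rw [hS, Finset.mem_filter, Finset.mem_Icc] at hm'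
      have h5 : (f m).1 ≤ X := by
        calc (f m).1 ≤ (f m).1 * (f m).2 := Nat.le_mul_of_pos_right _ h3
          _ = m := h1
          _ ≤ X := hm'.1.2
      have h6 : (f m).2 ≤ X / (f m).1 := by
        rw [Nat.le_div_iff_mul_le (by omega), mul_comm, h1]
        exact hm'.1.2
      simp only [hT, Finset.coe_sigma, Set.mem_sigma_iff, Finset.mem_coe, Finset.mem_Icc,
        Finset.mem_filter]
      exact ⟨⟨h2, h5⟩, ⟨h3, h6⟩, h4⟩
    · intro m hm m' hm' heq
      obtain ⟨h1, _⟩ := hf m hm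
      obtain ⟨h1', _⟩ := hf m' hm'
      simp only [Sigma.mk.injEq, heq_eq_eq] at heq
      rw [← h1, ← h1', heq.1, heq.2]
  have hYpos : (0 : ℝ) < Y := by linarith only [hY]
  have hY4 : 0 < Y ^ (1 / 4 : ℝ) := by positivity
  have hinner : ∀ t ∈ Finset.Icc 1 X,
      ((((Finset.Icc 1 (X / t)).filter (fun c => Y ^ (1 / 4 : ℝ) ≤ H t c)).card : ℕ) : ℝ)
        ≤ Y ^ (-(1 / 4) : ℝ) * ((X : ℝ) * (1 / t) * Real.exp κ) := by
    intro t ht
    rw [Finset.mem_Icc] at ht
    have ht0 : t ≠ 0 := by omega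
    have hDp : ∀ q ∈ t.primeFactors, q.Prime ∧ q ≤ X := by
      intro q hq
      exact ⟨Nat.prime_of_mem_primeFactors hq,
        (Nat.le_of_dvd (by omega) (Nat.dvd_of_mem_primeFactors hq)).trans ht.2⟩
    have hg1 : ∀ p ∈ P, 1 ≤ gw z t.primeFactors p := by
      intro p hp
      rw [hP, Finset.mem_filter] at hp
      exact one_le_gw (fun q hq => (hDp q hq).1) hp.2.one_lt.le
    have hHnn : ∀ c : ℕ, 0 ≤ H t c := by
      intro c
      apply Finset.prod_nonneg
      intro p hp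
      have := hg1 p (Finset.mem_filter.mp hp).1
      linarith only [this]
    have h1 : ((((Finset.Icc 1 (X / t)).filter (fun c => Y ^ (1 / 4 : ℝ) ≤ H t c)).card : ℕ) : ℝ)
        * Y ^ (1 / 4 : ℝ) ≤ ∑ c ∈ Finset.Icc 1 (X / t), H t c := by
      calc ((((Finset.Icc 1 (X / t)).filter (fun c => Y ^ (1 / 4 : ℝ) ≤ H t c)).card : ℕ) : ℝ)
          * Y ^ (1 / 4 : ℝ)
          = ∑ _c ∈ (Finset.Icc 1 (X / t)).filter (fun c => Y ^ (1 / 4 : ℝ) ≤ H t c),
              Y ^ (1 / 4 : ℝ) := by rw [Finset.sum_const, nsmul_eq_mul]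
        _ ≤ ∑ c ∈ (Finset.Icc 1 (X / t)).filter (fun c => Y ^ (1 / 4 : ℝ) ≤ H t c), H t c :=
            Finset.sum_le_sum (fun c hc => (Finset.mem_filter.mp hc).2)
        _ ≤ ∑ c ∈ Finset.Icc 1 (X / t), H t c :=
            Finset.sum_le_sum_of_subset_of_nonneg (Finset.filter_subset _ _)
              (fun c _ _ => hHnn c)
    have h2 := sum_weight_le_exp P (fun p hp => (Finset.mem_filter.mp hp).2)
      (fun p => gw z t.primeFactors p) hg1 (X / t)
    have h3 := hκ t.primeFactors hDp (card_primeFactors_le_log ht0 ht.2)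
    have htR : (0 : ℝ) < t := by exact_mod_cast (by omega : 0 < t)
    have h4 : ((X / t : ℕ) : ℝ) ≤ (X : ℝ) * (1 / t) := by
      rw [mul_one_div]
      exact Nat.cast_div_le
    have h5 : ((((Finset.Icc 1 (X / t)).filter (fun c => Y ^ (1 / 4 : ℝ) ≤ H t c)).card : ℕ) : ℝ)
        * Y ^ (1 / 4 : ℝ) ≤ (X : ℝ) * (1 / t) * Real.exp κ := by
      calc _ ≤ ∑ c ∈ Finset.Icc 1 (X / t), H t c := h1
        _ ≤ ((X / t : ℕ) : ℝ) * Real.exp (∑ p ∈ P, (gw z t.primeFactors p - 1) / p) := h2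
        _ ≤ (X : ℝ) * (1 / t) * Real.exp κ := by
            apply mul_le_mul h4 (Real.exp_le_exp.mpr h3) (by positivity) (by (clear * - ht0; positivity))
    rw [Real.rpow_neg hYpos.le, inv_mul_eq_div, le_div_iff₀ hY4]
    exact h5
  calc (S.card : ℝ) ≤ (T.card : ℝ) := by exact_mod_cast hcard
    _ = ∑ t ∈ Finset.Icc 1 X,
        ((((Finset.Icc 1 (X / t)).filter (fun c => Y ^ (1 / 4 : ℝ) ≤ H t c)).card : ℕ) : ℝ) := by
        rw [hT, Finset.card_sigma]
        push_cast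
        rfl
    _ ≤ ∑ t ∈ Finset.Icc 1 X, Y ^ (-(1 / 4) : ℝ) * ((X : ℝ) * (1 / t) * Real.exp κ) :=
        Finset.sum_le_sum hinner
    _ = Y ^ (-(1 / 4) : ℝ) * X * Real.exp κ * ∑ t ∈ Finset.Icc 1 X, (1 / (t : ℝ)) := by
        rw [Finset.mul_sum]
        apply Finset.sum_congr rfl
        intro t _
        ring
    _ ≤ Y ^ (-(1 / 4) : ℝ) * X * Real.exp κ * (1 + Real.log X) := by
        apply mul_le_mul_of_nonneg_left _ (by (clear * - hY; positivity))
        have h2 : ∑ j ∈ Finset.Icc 1 X, (1 / (j : ℝ)) = ((harmonic X : ℚ) : ℝ) := by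
          rw [harmonic_eq_sum_Icc]
          push_cast
          simp only [one_div]
        rw [h2]
        exact harmonic_le_one_add_log X
    _ = X * (1 + Real.log X) * Real.exp κ * Y ^ (-(1 / 4) : ℝ) := by ring

end Vale.Agent.P033
end
end

section

section

namespace Vale.Agent.P033

open Finset
open scoped Classical in

lemma count_sq (X : ℕ) (B : ℝ) (hB : 1 ≤ B) :
    (((Finset.Icc 1 X).filter (fun m => ∃ b : ℕ, B ≤ b ∧ b ^ 2 ∣ m)).card : ℝ) ≤ 2 * X / B := by
  classical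
  set k := ⌈B⌉₊ with hk
  have hk1 : 1 ≤ k := Nat.one_le_ceil_iff.mpr (by linarith only [hB])
  have hsub : (Finset.Icc 1 X).filter (fun m => ∃ b : ℕ, B ≤ b ∧ b ^ 2 ∣ m) ⊆
      (Finset.Ioo (k - 1) (X + 1)).biUnion (fun b => (Finset.Ioc 0 X).filter (fun m => b ^ 2 ∣ m)) := by
    intro m hm
    rw [Finset.mem_filter, Finset.mem_Icc] at hm
    obtain ⟨⟨h1, h2⟩, b, hb, hbm⟩ := hm
    rw [Finset.mem_biUnion]
    have hkb : k ≤ b := Nat.ceil_le.mpr hb
    have hbX : b ≤ X := by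
      have h3 : b ^ 2 ≤ m := Nat.le_of_dvd (by omega) hbm
      have h4 : b ≤ b ^ 2 := Nat.le_self_pow (by norm_num) b
      omega
    refine ⟨b, ?_, ?_⟩
    · rw [Finset.mem_Ioo]; omega
    · rw [Finset.mem_filter, Finset.mem_Ioc]
      exact ⟨⟨by omega, h2⟩, hbm⟩
  calc (((Finset.Icc 1 X).filter (fun m => ∃ b : ℕ, B ≤ b ∧ b ^ 2 ∣ m)).card : ℝ)
      ≤ (((Finset.Ioo (k - 1) (X + 1)).biUnion
          (fun b => (Finset.Ioc 0 X).filter (fun m => b ^ 2 ∣ m))).card : ℝ) := by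
        exact_mod_cast Finset.card_le_card hsub
    _ ≤ ((∑ b ∈ Finset.Ioo (k - 1) (X + 1),
          ((Finset.Ioc 0 X).filter (fun m => b ^ 2 ∣ m)).card : ℕ) : ℝ) := by
        exact_mod_cast Finset.card_biUnion_le
    _ = ∑ b ∈ Finset.Ioo (k - 1) (X + 1), ((X / b ^ 2 : ℕ) : ℝ) := by
        push_cast
        apply Finset.sum_congr rfl
        intro b _
        rw [Nat.Ioc_filter_dvd_card_eq_div]
    _ ≤ ∑ b ∈ Finset.Ioo (k - 1) (X + 1), (X : ℝ) * ((b : ℝ) ^ 2)⁻¹ := by
        apply Finset.sum_le_sum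
        intro b _
        rw [← div_eq_mul_inv]
        have : ((X / b ^ 2 : ℕ) : ℝ) ≤ (X : ℝ) / ((b ^ 2 : ℕ) : ℝ) := Nat.cast_div_le
        simpa only [ge_iff_le, Nat.cast_pow] using this
    _ = X * ∑ b ∈ Finset.Ioo (k - 1) (X + 1), ((b : ℝ) ^ 2)⁻¹ := by rw [Finset.mul_sum]
    _ ≤ X * (2 / (((k - 1 : ℕ) : ℝ) + 1)) :=
        mul_le_mul_of_nonneg_left (sum_Ioo_inv_sq_le _ _) (by positivity)
    _ ≤ X * (2 / B) := by
        apply mul_le_mul_of_nonneg_left _ (by positivity)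
        apply div_le_div_of_nonneg_left (by norm_num) (by linarith only [hB])
        have h5 : (((k - 1 : ℕ) : ℝ)) + 1 = k := by
          rw [Nat.cast_sub hk1]; simp
        rw [h5]
        exact Nat.le_ceil B
    _ = 2 * X / B := by ring

lemma sum_rpow_le {η : ℝ} (hη : 0 < η) (hη1 : η ≤ 1) (N : ℕ) :
    ∑ n ∈ Finset.Icc 1 N, (n : ℝ) ^ (η - 1) ≤ (N : ℝ) ^ η / η := by
  induction N with
  | zero => simp [Real.zero_rpow hη.ne']
  | succ N ih =>
    rw [Finset.sum_Icc_succ_top (by omega)]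
    have hN1 : (0 : ℝ) < ((N + 1 : ℕ) : ℝ) := by positivity
    have h1 : ((N : ℝ)) = ((N + 1 : ℕ) : ℝ) * (1 + (-(1 / ((N + 1 : ℕ) : ℝ)))) := by
      field_simp
      push_cast
      ring
    have h2 : (1 + (-(1 / ((N + 1 : ℕ) : ℝ)))) ^ η ≤ 1 + η * (-(1 / ((N + 1 : ℕ) : ℝ))) := by
      apply rpow_one_add_le_one_add_mul_self _ hη.le hη1
      rw [neg_le_neg_iff, div_le_one hN1]
      push_cast
      have : (0 : ℝ) ≤ N := by positivity
      linarith only []
    have h3 : (0 : ℝ) ≤ 1 + (-(1 / ((N + 1 : ℕ) : ℝ))) := by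
      have : 1 / ((N + 1 : ℕ) : ℝ) ≤ 1 := by
        rw [div_le_one hN1]; push_cast
        have : (0 : ℝ) ≤ N := by positivity
        linarith only []
      linarith only [this]
    have h4 : (N : ℝ) ^ η ≤ ((N + 1 : ℕ) : ℝ) ^ η - η * ((N + 1 : ℕ) : ℝ) ^ (η - 1) := by
      calc (N : ℝ) ^ η = (((N + 1 : ℕ) : ℝ) * (1 + (-(1 / ((N + 1 : ℕ) : ℝ))))) ^ η := by rw [← h1]
        _ = ((N + 1 : ℕ) : ℝ) ^ η * (1 + (-(1 / ((N + 1 : ℕ) : ℝ)))) ^ η :=
            Real.mul_rpow hN1.le h3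
        _ ≤ ((N + 1 : ℕ) : ℝ) ^ η * (1 + η * (-(1 / ((N + 1 : ℕ) : ℝ)))) :=
            mul_le_mul_of_nonneg_left h2 (by positivity)
        _ = ((N + 1 : ℕ) : ℝ) ^ η - η * ((N + 1 : ℕ) : ℝ) ^ (η - 1) := by
            rw [Real.rpow_sub_one hN1.ne']
            ring
    have h5 : (N : ℝ) ^ η / η ≤ ((N + 1 : ℕ) : ℝ) ^ η / η - ((N + 1 : ℕ) : ℝ) ^ (η - 1) := by
      rw [div_le_iff₀ hη]
      calc (N : ℝ) ^ η ≤ ((N + 1 : ℕ) : ℝ) ^ η - η * ((N + 1 : ℕ) : ℝ) ^ (η - 1) := h4
        _ = (((N + 1 : ℕ) : ℝ) ^ η / η - ((N + 1 : ℕ) : ℝ) ^ (η - 1)) * η := by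
            field_simp
    linarith only [ih, h5]

lemma count_rad (X z : ℕ) (η : ℝ) (hη : 0 < η) (hη1 : η ≤ 1) (Y : ℝ) (hY : 0 < Y) :
    (((Finset.Icc 1 X).filter
      (fun m : ℕ => Y ≤ ∏ p ∈ m.primeFactors.filter (fun p => p < z), (p : ℝ))).card : ℝ)
      ≤ X * Y ^ (-η) * Real.exp ((z : ℝ) ^ η / η) := by
  classical
  set P := (Finset.Icc 1 z).filter Nat.Prime with hP
  set g : ℕ → ℝ := fun p => if p < z then (p : ℝ) ^ η else 1 with hg
  have hPp : ∀ p ∈ P, p.Prime := fun p hp => (Finset.mem_filter.mp hp).2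
  have hg1 : ∀ p ∈ P, 1 ≤ g p := by
    intro p hp
    simp only [hg]
    split_ifs
    · exact Real.one_le_rpow (by exact_mod_cast (hPp p hp).one_lt.le) hη.le
    · exact le_refl _
  have hmain := sum_weight_le_exp P hPp g hg1 X
  have hprod : ∀ m ∈ Finset.Icc 1 X, ∏ p ∈ P.filter (fun p => p ∣ m), g p
      = (∏ p ∈ m.primeFactors.filter (fun p => p < z), (p : ℝ)) ^ η := by
    intro m hm
    rw [Finset.mem_Icc] at hm
    rw [← Real.finsetProd_rpow _ _ (fun i _ => by positivity)]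
    have h1 : ∏ p ∈ m.primeFactors.filter (fun p => p < z), ((p : ℝ)) ^ η
        = ∏ p ∈ m.primeFactors.filter (fun p => p < z), g p := by
      apply Finset.prod_congr rfl
      intro p hp
      rw [Finset.mem_filter] at hp
      simp only [hg, if_pos hp.2]
    rw [h1]
    symm
    apply Finset.prod_subset
    · intro p hp
      rw [Finset.mem_filter, Nat.mem_primeFactors] at hp
      rw [Finset.mem_filter, hP, Finset.mem_filter, Finset.mem_Icc]
      exact ⟨⟨⟨hp.1.1.one_lt.le, hp.2.le⟩, hp.1.1⟩, hp.1.2.1⟩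
    · intro p hp hp2
      rw [Finset.mem_filter] at hp
      rw [Finset.mem_filter, Nat.mem_primeFactors] at hp2
      simp only [hg]
      rw [if_neg]
      intro hlt
      exact hp2 ⟨⟨hPp p hp.1, hp.2, by omega⟩, hlt⟩
  rw [Finset.sum_congr rfl hprod] at hmain
  have hsum : ∑ p ∈ P, (g p - 1) / p ≤ (z : ℝ) ^ η / η := by
    calc ∑ p ∈ P, (g p - 1) / p ≤ ∑ p ∈ P, (p : ℝ) ^ (η - 1) := by
          apply Finset.sum_le_sum
          intro p hp
          have hpR : (0 : ℝ) < p := by exact_mod_cast (hPp p hp).pos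
          rw [Real.rpow_sub_one hpR.ne']
          apply div_le_div_of_nonneg_right _ hpR.le
          simp only [hg]
          split_ifs
          · linarith only []
          · have : 0 < (p : ℝ) ^ η := by (clear * - hpR; positivity)
            linarith only [this]
      _ ≤ ∑ n ∈ Finset.Icc 1 z, (n : ℝ) ^ (η - 1) := by
          apply Finset.sum_le_sum_of_subset_of_nonneg (Finset.filter_subset _ _)
          intro n _ _
          (clear * -; positivity)
      _ ≤ (z : ℝ) ^ η / η := sum_rpow_le hη hη1 z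
  have hYη : 0 < Y ^ η := by positivity
  set S := (Finset.Icc 1 X).filter
      (fun m : ℕ => Y ≤ ∏ p ∈ m.primeFactors.filter (fun p => p < z), (p : ℝ)) with hS
  have h1 : (S.card : ℝ) * Y ^ η ≤ X * Real.exp ((z : ℝ) ^ η / η) := by
    calc (S.card : ℝ) * Y ^ η = ∑ _m ∈ S, Y ^ η := by rw [Finset.sum_const, nsmul_eq_mul]
      _ ≤ ∑ m ∈ S, (∏ p ∈ m.primeFactors.filter (fun p => p < z), (p : ℝ)) ^ η := by
          apply Finset.sum_le_sum
          intro m hm
          exact Real.rpow_le_rpow hY.le (Finset.mem_filter.mp hm).2 hη.le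
      _ ≤ ∑ m ∈ Finset.Icc 1 X, (∏ p ∈ m.primeFactors.filter (fun p => p < z), (p : ℝ)) ^ η := by
          apply Finset.sum_le_sum_of_subset_of_nonneg (Finset.filter_subset _ _)
          intro m _ _
          (clear * -; positivity)
      _ ≤ X * Real.exp (∑ p ∈ P, (g p - 1) / p) := hmain
      _ ≤ X * Real.exp ((z : ℝ) ^ η / η) := by
          apply mul_le_mul_of_nonneg_left _ (by positivity)
          exact Real.exp_le_exp.mpr hsum
  rw [Real.rpow_neg hY.le]
  calc (S.card : ℝ) ≤ (X * Real.exp ((z : ℝ) ^ η / η)) / Y ^ η := by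
        rw [le_div_iff₀ hYη]; exact h1
    _ = X * (Y ^ η)⁻¹ * Real.exp ((z : ℝ) ^ η / η) := by ring

lemma pow_omega_le (K : ℝ) (hK : 1 ≤ K) (ε : ℝ) (hε : 0 < ε) :
    ∃ C : ℝ, 1 ≤ C ∧ ∀ m : ℕ, 1 ≤ m → K ^ m.primeFactors.card ≤ C * (m : ℝ) ^ ε := by
  classical
  set T : ℕ := ⌈K ^ (1 / ε)⌉₊ with hT
  refine ⟨K ^ T, one_le_pow₀ hK, ?_⟩
  intro m hm
  have hm0 : m ≠ 0 := by omega
  have h1 : K ^ m.primeFactors.card = ∏ _p ∈ m.primeFactors, K := by simp
  rw [h1, ← Finset.prod_filter_mul_prod_filter_not m.primeFactors (fun p => p < T)]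
  have hK0 : (0 : ℝ) < K := by linarith only [hK]
  apply mul_le_mul
  · rw [Finset.prod_const]
    apply pow_le_pow_right₀ hK
    calc (m.primeFactors.filter (fun p => p < T)).card ≤ (Finset.range T).card := by
          apply Finset.card_le_card
          intro p hp
          exact Finset.mem_range.mpr (Finset.mem_filter.mp hp).2
      _ = T := Finset.card_range T
  · calc ∏ _p ∈ m.primeFactors.filter (fun p => ¬ p < T), K
        ≤ ∏ p ∈ m.primeFactors.filter (fun p => ¬ p < T), (p : ℝ) ^ ε := by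
          apply Finset.prod_le_prod
          · intro p _; linarith only [hK]
          · intro p hp
            have hp2 := (Finset.mem_filter.mp hp).2
            push Not at hp2
            have h2 : K ^ (1 / ε) ≤ (p : ℝ) := by
              calc K ^ (1 / ε) ≤ (T : ℝ) := Nat.le_ceil _
                _ ≤ p := by exact_mod_cast hp2
            calc K = (K ^ (1 / ε)) ^ ε := by
                  rw [← Real.rpow_mul hK0.le]
                  rw [one_div, inv_mul_cancel₀ hε.ne', Real.rpow_one]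
              _ ≤ (p : ℝ) ^ ε := Real.rpow_le_rpow (by positivity) h2 hε.le
      _ ≤ ∏ p ∈ m.primeFactors, (p : ℝ) ^ ε := by
          apply Finset.prod_le_prod_of_subset_of_one_le (Finset.filter_subset _ _)
          · intro p _; (clear * -; positivity)
          · intro p hp _
            exact Real.one_le_rpow
              (by exact_mod_cast (Nat.prime_of_mem_primeFactors hp).one_lt.le) hε.le
      _ = ((∏ p ∈ m.primeFactors, p : ℕ) : ℝ) ^ ε := by
          rw [Real.finsetProd_rpow _ _ (fun i _ => by (clear * -; positivity))]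
          push_cast
          rfl
      _ ≤ (m : ℝ) ^ ε := by
          apply Real.rpow_le_rpow (by (clear * -; positivity)) _ hε.le
          exact_mod_cast Nat.le_of_dvd (by omega) (Nat.prod_primeFactors_dvd m)
  · apply Finset.prod_nonneg; intro _ _; linarith only [hK]
  · positivity

end Vale.Agent.P033
end
end

section

section

namespace Vale.Agent.P033

open Finset

lemma totient_ratio_le {m : ℕ} (hm : 0 < m) :
    ((m ^ 2 : ℕ) / (Nat.totient (m ^ 2)) : ℝ) ≤ 2 ^ m.primeFactors.card := by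
  have hφ : (0 : ℝ) < Nat.totient (m ^ 2) := by
    exact_mod_cast Nat.totient_pos.mpr (pow_pos hm 2)
  rw [div_le_iff₀ hφ]
  have h1 := Nat.totient_eq_mul_prod_factors (m ^ 2)
  rw [Nat.primeFactors_pow m (by norm_num)] at h1
  have h2 : ((Nat.totient (m ^ 2) : ℝ)) = ((m ^ 2 : ℕ) : ℝ) * ∏ p ∈ m.primeFactors, (1 - (p : ℝ)⁻¹) := by
    have := congrArg (fun q : ℚ => (q : ℝ)) h1
    push_cast at this ⊢
    exact this
  rw [h2]
  have h3 : (1 / 2 : ℝ) ^ m.primeFactors.card ≤ ∏ p ∈ m.primeFactors, (1 - (p : ℝ)⁻¹) := by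
    rw [← Finset.prod_const]
    apply Finset.prod_le_prod
    · intro _ _; norm_num
    · intro p hp
      have h4 : (2 : ℝ) ≤ p := by exact_mod_cast (Nat.prime_of_mem_primeFactors hp).two_le
      have h5 : (p : ℝ)⁻¹ ≤ 2⁻¹ := inv_anti₀ (by norm_num) h4
      norm_num at h5 ⊢
      linarith only [h5]
  have h4 : (1 : ℝ) ≤ 2 ^ m.primeFactors.card * ∏ p ∈ m.primeFactors, (1 - (p : ℝ)⁻¹) := by
    calc (1 : ℝ) = 2 ^ m.primeFactors.card * (1 / 2 : ℝ) ^ m.primeFactors.card := by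
          rw [← mul_pow]; norm_num
      _ ≤ _ := by (clear * - h3; gcongr)
  calc ((m ^ 2 : ℕ) : ℝ) = ((m ^ 2 : ℕ) : ℝ) * 1 := by ring
    _ ≤ ((m ^ 2 : ℕ) : ℝ) * (2 ^ m.primeFactors.card * ∏ p ∈ m.primeFactors, (1 - (p : ℝ)⁻¹)) := by
        gcongr
    _ = _ := by ring

lemma gw_typ_pow {z : ℕ} {D : Finset ℕ} {p : ℕ} (h : Typ D p) :
    gw z D p = (p : ℝ) ^ (1 / 8 : ℝ) := by
  unfold gw; rw [if_pos h]

theorem structure_bound (m z b : ℕ) (hm : 0 < m) (_hz : 2 ≤ z) (hb : b ^ 2 ∣ m)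
    (hb2 : Squarefree (m / b ^ 2))
    (hkey : ∀ k, Squarefree k → k ∣ m →
      (∀ q ∈ k.primeFactors, ∀ l ∈ m.primeFactors, ¬ q ∣ l - 1) →
      (k : ℝ) ≤ 4 ^ k.primeFactors.card * ((m ^ 2 : ℕ) / (Nat.totient (m ^ 2)) : ℝ) *
        (∏ p ∈ m.primeFactors.filter
          (fun p => ∃ q ∈ k.primeFactors, q ≠ p ∧ p ^ (q - 1) ≡ 1 [MOD q ^ 2]),
          (p : ℝ) ^ m.factorization p) ^ 2) :
    (m : ℝ) ≤ 8 ^ m.primeFactors.card * (b : ℝ) ^ 6 *
      (∏ p ∈ m.primeFactors.filter (fun p => p < z), (p : ℝ)) ^ 3 *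
      (∏ p ∈ m.primeFactors.filter (fun p => z ≤ p), gw z (m.primeFactors.erase p) p) ^ 26 := by
  classical
  set P := m.primeFactors with hP
  have hPprime : ∀ p ∈ P, p.Prime := fun p hp => Nat.prime_of_mem_primeFactors hp
  set g : ℕ → ℝ := fun p => gw z (P.erase p) p with hg
  set Small := P.filter (fun p => p < z) with hSmall
  set Big := P.filter (fun p => z ≤ p) with hBig
  set Sat := Big.filter (fun p => g p = (p : ℝ) ^ (1 / 8 : ℝ)) with hSat
  set U := Big.filter (fun p => ¬ g p = (p : ℝ) ^ (1 / 8 : ℝ)) with hU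
  set F : ℕ → Finset ℕ := fun p => Fset z (P.erase p) p with hF
  set R := U.biUnion F with hR
  set Q := (Big \ Sat) \ R with hQ
  set G := ∏ p ∈ Big, g p with hG
  have hBigP : ∀ p ∈ Big, p ∈ P := fun p hp => (Finset.mem_filter.mp hp).1
  have hg1 : ∀ p ∈ Big, 1 ≤ g p := by
    intro p hp
    apply one_le_gw
    · intro q hq
      exact hPprime q (Finset.mem_of_mem_erase hq)
    · exact (hPprime p (hBigP p hp)).one_lt.le
  have hsub : ∀ S ⊆ Big, ∏ p ∈ S, g p ≤ G := by
    intro S hS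
    apply Finset.prod_le_prod_of_subset_of_one_le hS
    · intro p hp; linarith only [hg1 p (hS hp)]
    · intro p hp _; exact hg1 p hp
  have hG1 : 1 ≤ G := Finset.one_le_prod hg1
  have hG0 : 0 < G := by linarith only [hG1]
  have hSatBig : Sat ⊆ Big := Finset.filter_subset _ _
  have hUBig : U ⊆ Big := Finset.filter_subset _ _
  -- product over Sat
  have hsatprod : ∏ p ∈ Sat, (p : ℝ) ≤ G ^ 8 := by
    calc ∏ p ∈ Sat, (p : ℝ) = ∏ p ∈ Sat, (g p) ^ 8 := by
          refine Finset.prod_congr rfl fun p hp => ?_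
          rw [(Finset.mem_filter.mp hp).2, ← Real.rpow_natCast, ← Real.rpow_mul (by (clear * -; positivity))]
          norm_num
      _ = (∏ p ∈ Sat, g p) ^ 8 := by rw [Finset.prod_pow]
      _ ≤ G ^ 8 := by
          apply pow_le_pow_left₀ _ (hsub Sat hSatBig)
          exact Finset.prod_nonneg fun p hp => by linarith only [hg1 p (hSatBig hp)]
  -- elements of U
  have hUval : ∀ p ∈ U, ((∏ q ∈ F p, q : ℕ) : ℝ) = (g p) ^ 2 := by
    intro p hp
    have hnot := (Finset.mem_filter.mp hp).2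
    have h1 : ¬ Typ (P.erase p) p := fun ht => hnot (gw_typ_pow ht)
    have h2 : g p = min ((p : ℝ) ^ (1 / 8 : ℝ)) (((∏ q ∈ F p, q : ℕ) : ℝ) ^ (1 / 2 : ℝ)) := by
      simp only [hg, gw, if_neg h1, hF]
    have h3 : g p = ((∏ q ∈ F p, q : ℕ) : ℝ) ^ (1 / 2 : ℝ) := by
      rcases min_choice ((p : ℝ) ^ (1 / 8 : ℝ)) (((∏ q ∈ F p, q : ℕ) : ℝ) ^ (1 / 2 : ℝ)) with h | h
      · exact absurd (h2.trans h) hnot
      · exact h2.trans h
    rw [h3, ← Real.rpow_natCast, ← Real.rpow_mul (by (clear * -; positivity))]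
    norm_num
  have hRprime : ∀ q ∈ R, q.Prime := by
    intro q hq
    obtain ⟨p, _, hqF⟩ := Finset.mem_biUnion.mp hq
    exact hPprime q (Finset.mem_of_mem_erase (Finset.mem_filter.mp hqF).1)
  have hRprod : ∏ q ∈ R, (q : ℝ) ≤ G ^ 2 := by
    have hFprime : ∀ p, ∀ q ∈ F p, q.Prime := by
      intro p q hq
      exact hPprime q (Finset.mem_of_mem_erase (Finset.mem_filter.mp hq).1)
    have hdvd : ∏ q ∈ R, q ∣ ∏ p ∈ U, ∏ q ∈ F p, q := by
      apply Finset.prod_primes_dvd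
      · intro q hq
        exact (hRprime q hq).prime
      · intro q hq
        obtain ⟨p, hpU, hqF⟩ := Finset.mem_biUnion.mp hq
        exact (Finset.dvd_prod_of_mem (fun q => q) hqF).trans
          (Finset.dvd_prod_of_mem (fun p => ∏ q ∈ F p, q) hpU)
    have hpos : 0 < ∏ p ∈ U, ∏ q ∈ F p, q :=
      Finset.prod_pos fun p _ => Finset.prod_pos fun q hq => (hFprime p q hq).pos
    have hle : ((∏ q ∈ R, q : ℕ) : ℝ) ≤ ((∏ p ∈ U, ∏ q ∈ F p, q : ℕ) : ℝ) := by
      exact_mod_cast Nat.le_of_dvd hpos hdvd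
    calc ∏ q ∈ R, (q : ℝ) = ((∏ q ∈ R, q : ℕ) : ℝ) := by push_cast; rfl
      _ ≤ ((∏ p ∈ U, ∏ q ∈ F p, q : ℕ) : ℝ) := hle
      _ = ∏ p ∈ U, ((∏ q ∈ F p, q : ℕ) : ℝ) := by push_cast; rfl
      _ = ∏ p ∈ U, (g p) ^ 2 := Finset.prod_congr rfl hUval
      _ = (∏ p ∈ U, g p) ^ 2 := by rw [Finset.prod_pow]
      _ ≤ G ^ 2 := by
          apply pow_le_pow_left₀ _ (hsub U hUBig)
          exact Finset.prod_nonneg fun p hp => by linarith only [hg1 p (hUBig hp)]
  -- k
  have hQBig : Q ⊆ Big := (Finset.sdiff_subset).trans Finset.sdiff_subset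
  have hQprime : ∀ q ∈ Q, q.Prime := fun q hq => hPprime q (hBigP q (hQBig hq))
  set k := ∏ q ∈ Q, q with hk
  have hkpf : k.primeFactors = Q := Nat.primeFactors_prod hQprime
  have hksq : Squarefree k := by
    apply Finset.squarefree_prod_of_pairwise_isCoprime
    · intro a ha c hc hac
      have := (Nat.coprime_primes (hQprime a ha) (hQprime c hc)).mpr hac
      exact Nat.coprime_iff_isRelPrime.mp this
    · intro a ha
      exact (hQprime a ha).squarefree
  have hkm : k ∣ m := by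
    apply Finset.prod_primes_dvd
    · intro q hq; exact (hQprime q hq).prime
    · intro q hq
      exact Nat.dvd_of_mem_primeFactors (hBigP q (hQBig hq))
  have hk1 : ∀ q ∈ k.primeFactors, ∀ l ∈ P, ¬ q ∣ l - 1 := by
    intro q hq l hl hd
    rw [hkpf] at hq
    have hqp := hQprime q hq
    have hlq : l ≠ q := by
      rintro rfl
      have h2 := hqp.two_le
      have := Nat.le_of_dvd (by omega) hd
      omega
    have hT : Typ (P.erase q) q := ⟨l, Finset.mem_erase.mpr ⟨hlq, hl⟩, hd⟩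
    have hqSat : q ∈ Sat := by
      rw [hSat, Finset.mem_filter]
      exact ⟨hQBig hq, gw_typ_pow hT⟩
    rw [hQ, Finset.mem_sdiff, Finset.mem_sdiff] at hq
    exact hq.1.2 hqSat
  have hkineq := hkey k hksq hkm hk1
  -- V
  set bad := P.filter (fun p => ∃ q ∈ k.primeFactors, q ≠ p ∧ p ^ (q - 1) ≡ 1 [MOD q ^ 2]) with hbad
  have hbadsub : bad ⊆ Small ∪ Sat := by
    intro p hp
    rw [hbad, Finset.mem_filter] at hp
    obtain ⟨hpP, q, hq, hqp, hW⟩ := hp
    rw [hkpf] at hq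
    by_cases hpz : p < z
    · exact Finset.mem_union_left _ (Finset.mem_filter.mpr ⟨hpP, hpz⟩)
    · push Not at hpz
      apply Finset.mem_union_right
      have hpBig : p ∈ Big := Finset.mem_filter.mpr ⟨hpP, hpz⟩
      by_contra hns
      have hpU : p ∈ U := by
        rw [hU, Finset.mem_filter]
        refine ⟨hpBig, fun h => hns ?_⟩
        rw [hSat, Finset.mem_filter]
        exact ⟨hpBig, h⟩
      have hqR : q ∈ R := by
        rw [hR, Finset.mem_biUnion]
        refine ⟨p, hpU, ?_⟩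
        rw [hF]
        simp only [Fset, Finset.mem_filter, Finset.mem_erase]
        refine ⟨⟨hqp, hBigP q (hQBig hq)⟩, ?_, hqp, hW⟩
        exact (Finset.mem_filter.mp (hQBig hq)).2
      rw [hQ, Finset.mem_sdiff] at hq
      exact hq.2 hqR
  obtain ⟨s, hs⟩ := hb
  have hb0 : 0 < b := by
    rcases Nat.eq_zero_or_pos b with h0 | h0
    · rw [h0] at hs; simp at hs; omega
    · exact h0
  have hs' : m / b ^ 2 = s := by rw [hs, Nat.mul_div_cancel_left _ (by (clear * - hb0; positivity))]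
  rw [hs'] at hb2
  have hs0 : s ≠ 0 := hb2.ne_zero
  have hval : ∀ p, m.factorization p ≤ 2 * b.factorization p + 1 := by
    intro p
    rw [hs, Nat.factorization_mul (by (clear * - hb0; positivity)) hs0, Nat.factorization_pow]
    have := hb2.natFactorization_le_one p
    simp only [Finsupp.add_apply, Finsupp.smul_apply, smul_eq_mul]
    omega
  set Rz := ∏ p ∈ Small, (p : ℝ) with hRz
  have hRz1 : 1 ≤ Rz := Finset.one_le_prod fun p hp => by
    exact_mod_cast (hPprime p (Finset.mem_filter.mp hp).1).one_lt.le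
  have hSmallP : Small ⊆ P := Finset.filter_subset _ _
  have hunionP : Small ∪ Sat ⊆ P := Finset.union_subset hSmallP (hSatBig.trans (Finset.filter_subset _ _))
  have hdisj : Disjoint Small Sat := by
    rw [Finset.disjoint_left]
    intro p hp hp2
    have h1 := (Finset.mem_filter.mp hp).2
    have h2 := (Finset.mem_filter.mp (hSatBig hp2)).2
    omega
  have hVle : ∏ p ∈ bad, (p : ℝ) ^ m.factorization p ≤ Rz * G ^ 8 * (b : ℝ) ^ 2 := by
    have hone : ∀ p ∈ P, (1 : ℝ) ≤ p := fun p hp => by exact_mod_cast (hPprime p hp).one_lt.le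
    calc ∏ p ∈ bad, (p : ℝ) ^ m.factorization p
        ≤ ∏ p ∈ Small ∪ Sat, (p : ℝ) ^ m.factorization p := by
          apply Finset.prod_le_prod_of_subset_of_one_le hbadsub
          · intro p _; (clear * -; positivity)
          · intro p hp _
            exact one_le_pow₀ (hone p (hunionP hp))
      _ ≤ ∏ p ∈ Small ∪ Sat, ((p : ℝ) * ((p : ℝ) ^ b.factorization p) ^ 2) := by
          apply Finset.prod_le_prod
          · intro p _; (clear * -; positivity)
          · intro p hp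
            calc (p : ℝ) ^ m.factorization p ≤ (p : ℝ) ^ (2 * b.factorization p + 1) :=
                  pow_le_pow_right₀ (hone p (hunionP hp)) (hval p)
              _ = _ := by rw [← pow_mul, pow_succ]; ring
      _ = (∏ p ∈ Small, (p : ℝ)) * (∏ p ∈ Sat, (p : ℝ)) *
            (∏ p ∈ Small ∪ Sat, (p : ℝ) ^ b.factorization p) ^ 2 := by
          rw [Finset.prod_mul_distrib, Finset.prod_pow, Finset.prod_union hdisj]
      _ ≤ Rz * G ^ 8 * (b : ℝ) ^ 2 := by
          have hbprod : ∏ p ∈ Small ∪ Sat, (p : ℝ) ^ b.factorization p ≤ b := by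
            have hbm : b.primeFactors ⊆ P := by
              apply Nat.primeFactors_mono _ hm.ne'
              exact ⟨b * s, by rw [hs]; ring⟩
            calc ∏ p ∈ Small ∪ Sat, (p : ℝ) ^ b.factorization p
                ≤ ∏ p ∈ P, (p : ℝ) ^ b.factorization p := by
                  apply Finset.prod_le_prod_of_subset_of_one_le hunionP
                  · intro p _; (clear * -; positivity)
                  · intro p hp _
                    exact one_le_pow₀ (hone p hp)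
              _ = ∏ p ∈ b.primeFactors, (p : ℝ) ^ b.factorization p := by
                  symm
                  apply Finset.prod_subset hbm
                  intro p _ hp
                  have : b.factorization p = 0 := by
                    rw [← Finsupp.notMem_support_iff, Nat.support_factorization]
                    exact hp
                  rw [this, pow_zero]
              _ = b := by
                  have := Nat.prod_factorization_pow_eq_self hb0.ne'
                  rw [Finsupp.prod, Nat.support_factorization] at this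
                  exact_mod_cast this
          have h0 : 0 ≤ ∏ p ∈ Small ∪ Sat, (p : ℝ) ^ b.factorization p :=
            Finset.prod_nonneg fun p _ => by (clear * -; positivity)
          (clear * - hsatprod hRz1 hbprod hG1; gcongr)
  -- final assembly
  have hω : Q.card ≤ P.card := Finset.card_le_card (hQBig.trans (Finset.filter_subset _ _))
  have hkle : (k : ℝ) ≤ 8 ^ P.card * (Rz * G ^ 8 * (b : ℝ) ^ 2) ^ 2 := by
    calc (k : ℝ) ≤ _ := hkineq
      _ ≤ 4 ^ P.card * 2 ^ P.card * (Rz * G ^ 8 * (b : ℝ) ^ 2) ^ 2 := by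
          have h0 : 0 ≤ ∏ p ∈ bad, (p : ℝ) ^ m.factorization p :=
            Finset.prod_nonneg fun p _ => by (clear * -; positivity)
          have h4 : (4 : ℝ) ^ k.primeFactors.card ≤ 4 ^ P.card := by
            rw [hkpf]
            exact pow_le_pow_right₀ (by norm_num) hω
          have h2 := totient_ratio_le hm
          have h5 : (0 : ℝ) ≤ ((m ^ 2 : ℕ) / (Nat.totient (m ^ 2)) : ℝ) := by positivity
          (clear * - h4 h2 hm hVle; gcongr)
      _ = _ := by rw [← mul_pow]; norm_num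
  have hmle : (m : ℝ) ≤ (b : ℝ) ^ 2 * (Rz * (G ^ 8 * (G ^ 2 * k))) := by
    have hsrad : s ∣ ∏ p ∈ P, p := by
      have h1 : ∏ p ∈ s.primeFactors, p = s := Nat.prod_primeFactors_of_squarefree hb2
      rw [← h1]
      apply Finset.prod_dvd_prod_of_subset
      exact Nat.primeFactors_mono ⟨b ^ 2, by rw [hs]; ring⟩ hm.ne'
    have hPpos : 0 < ∏ p ∈ P, p := Finset.prod_pos fun p hp => (hPprime p hp).pos
    have hsle : (s : ℝ) ≤ ∏ p ∈ P, (p : ℝ) := by
      have h1 : s ≤ ∏ p ∈ P, p := Nat.le_of_dvd hPpos hsrad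
      calc (s : ℝ) ≤ ((∏ p ∈ P, p : ℕ) : ℝ) := Nat.cast_le.mpr h1
        _ = ∏ p ∈ P, (p : ℝ) := by push_cast; rfl
    have hcover : P ⊆ Small ∪ (Sat ∪ (R ∪ Q)) := by
      intro p hp
      by_cases hpz : p < z
      · exact Finset.mem_union_left _ (Finset.mem_filter.mpr ⟨hp, hpz⟩)
      · push Not at hpz
        apply Finset.mem_union_right
        have hpBig : p ∈ Big := Finset.mem_filter.mpr ⟨hp, hpz⟩
        by_cases h1 : p ∈ Sat
        · exact Finset.mem_union_left _ h1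
        · apply Finset.mem_union_right
          by_cases h2 : p ∈ R
          · exact Finset.mem_union_left _ h2
          · apply Finset.mem_union_right
            rw [hQ, Finset.mem_sdiff, Finset.mem_sdiff]
            exact ⟨⟨hpBig, h1⟩, h2⟩
    have hprodunion : ∀ (A B : Finset ℕ), (∀ p ∈ A, 1 ≤ p) → (∀ p ∈ B, 1 ≤ p) →
        ∏ p ∈ A ∪ B, (p : ℝ) ≤ (∏ p ∈ A, (p : ℝ)) * ∏ p ∈ B, (p : ℝ) := by
      intro A B hA hB
      have h1 : A ∪ B = A ∪ (B \ A) := by simp
      rw [h1, Finset.prod_union Finset.disjoint_sdiff]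
      have h2 : ∏ p ∈ B \ A, (p : ℝ) ≤ ∏ p ∈ B, (p : ℝ) := by
        apply Finset.prod_le_prod_of_subset_of_one_le Finset.sdiff_subset
        · intro p _; (clear * -; positivity)
        · intro p hp _; exact_mod_cast hB p hp
      have h3 : 0 ≤ ∏ p ∈ A, (p : ℝ) := Finset.prod_nonneg fun p _ => by (clear * -; positivity)
      (clear * - h2; gcongr)
    have hSm1 : ∀ p ∈ Small, 1 ≤ p := fun p hp => (hPprime p (hSmallP hp)).one_lt.le
    have hSat1 : ∀ p ∈ Sat, 1 ≤ p := fun p hp => (hPprime p (hBigP p (hSatBig hp))).one_lt.le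
    have hR1 : ∀ p ∈ R, 1 ≤ p := fun p hp => (hRprime p hp).one_lt.le
    have hQ1 : ∀ p ∈ Q, 1 ≤ p := fun p hp => (hQprime p hp).one_lt.le
    have hRQ1 : ∀ p ∈ R ∪ Q, 1 ≤ p := fun p hp => by
      rcases Finset.mem_union.mp hp with h | h
      · exact hR1 p h
      · exact hQ1 p h
    have hSRQ1 : ∀ p ∈ Sat ∪ (R ∪ Q), 1 ≤ p := fun p hp => by
      rcases Finset.mem_union.mp hp with h | h
      · exact hSat1 p h
      · exact hRQ1 p h
    have hall1 : ∀ p ∈ Small ∪ (Sat ∪ (R ∪ Q)), 1 ≤ p := fun p hp => by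
      rcases Finset.mem_union.mp hp with h | h
      · exact hSm1 p h
      · exact hSRQ1 p h
    have hPle : ∏ p ∈ P, (p : ℝ) ≤ Rz * (G ^ 8 * (G ^ 2 * k)) := by
      calc ∏ p ∈ P, (p : ℝ) ≤ ∏ p ∈ Small ∪ (Sat ∪ (R ∪ Q)), (p : ℝ) := by
            apply Finset.prod_le_prod_of_subset_of_one_le hcover
            · intro p _; (clear * -; positivity)
            · intro p hp _; exact_mod_cast hall1 p hp
        _ ≤ Rz * ∏ p ∈ Sat ∪ (R ∪ Q), (p : ℝ) := hprodunion _ _ hSm1 hSRQ1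
        _ ≤ Rz * ((∏ p ∈ Sat, (p : ℝ)) * ∏ p ∈ R ∪ Q, (p : ℝ)) := by
            have := hprodunion Sat (R ∪ Q) hSat1 hRQ1
            (clear * - this hRz1; gcongr)
        _ ≤ Rz * ((∏ p ∈ Sat, (p : ℝ)) * ((∏ p ∈ R, (p : ℝ)) * ∏ p ∈ Q, (p : ℝ))) := by
            have h1 := hprodunion R Q hR1 hQ1
            have h3 : 0 ≤ ∏ p ∈ Sat, (p : ℝ) := Finset.prod_nonneg fun p _ => by (clear * -; positivity)
            (clear * - h1 hRz1; gcongr)
        _ ≤ Rz * (G ^ 8 * (G ^ 2 * k)) := by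
            have hkk : ∏ p ∈ Q, (p : ℝ) = k := by rw [hk]; push_cast; rfl
            rw [hkk]
            have h3 : 0 ≤ ∏ p ∈ Sat, (p : ℝ) := Finset.prod_nonneg fun p _ => by (clear * -; positivity)
            (clear * - hsatprod hRprod hG1 hRz1; gcongr)
    calc (m : ℝ) = (b : ℝ) ^ 2 * s := by rw [hs]; push_cast; ring
      _ ≤ (b : ℝ) ^ 2 * (Rz * (G ^ 8 * (G ^ 2 * k))) := by
          have := hsle.trans hPle
          (clear * - this hb0; gcongr)
  calc (m : ℝ) ≤ (b : ℝ) ^ 2 * (Rz * (G ^ 8 * (G ^ 2 * k))) := hmle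
    _ ≤ (b : ℝ) ^ 2 * (Rz * (G ^ 8 * (G ^ 2 * (8 ^ P.card * (Rz * G ^ 8 * (b : ℝ) ^ 2) ^ 2)))) := by
        (clear * - hkle hG1 hRz1 hb0; gcongr)
    _ = _ := by ring

end Vale.Agent.P033
end
end

section

section

namespace Vale.Agent.P033

section ringpart

variable {A : Type*} [CommRing A]

theorem pow_mod_of_pow_eq_one {M : Type*} [Monoid M] {z : M} {n : ℕ} (hz : z ^ n = 1) (k : ℕ) :
    z ^ (k % n) = z ^ k := by
  conv_rhs => rw [← Nat.div_add_mod k n, pow_add, pow_mul, hz, one_pow, one_mul]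

theorem pow_eq_pow_of_modEq {M : Type*} [Monoid M] {z : M} {n : ℕ} (hz : z ^ n = 1) {a b : ℕ}
    (hab : a ≡ b [MOD n]) : z ^ a = z ^ b := by
  rw [← pow_mod_of_pow_eq_one hz a, ← pow_mod_of_pow_eq_one hz b, hab]

theorem pow_val_add {M : Type*} [Monoid M] {z : M} {n : ℕ} [NeZero n] (hz : z ^ n = 1)
    (i j : ZMod n) : z ^ (i + j).val = z ^ i.val * z ^ j.val := by
  rw [ZMod.val_add, pow_mod_of_pow_eq_one hz, pow_add]

/-- The group ring identity `h(z) h(z⁻¹) = n`. -/
theorem ring_corr (n : ℕ) [NeZero n] (z : A) (hz : z ^ n = 1)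
    (h : ZMod n → ℤ) (hsq : ∀ i, h i * h i = 1)
    (hcorr : ∀ t : ZMod n, t ≠ 0 → ∑ i, h i * h (i + t) = 0) :
    (∑ i : ZMod n, (h i : A) * z ^ i.val) * (∑ i : ZMod n, (h i : A) * z ^ (-i).val) = n := by
  classical
  rw [Finset.sum_mul_sum, Finset.sum_comm]
  have h1 : ∀ j : ZMod n, ∑ i : ZMod n, (h i : A) * z ^ i.val * ((h j : A) * z ^ (-j).val)
      = ∑ t : ZMod n, ((h j * h (j + t) : ℤ) : A) * z ^ t.val := by
    intro j
    rw [← Equiv.sum_comp (Equiv.addLeft j)]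
    refine Finset.sum_congr rfl fun t _ => ?_
    simp only [Equiv.coe_addLeft]
    have : z ^ t.val = z ^ (j + t).val * z ^ (-j).val := by
      rw [← pow_val_add hz]; congr 2; abel
    rw [this]; push_cast; ring
  simp_rw [h1]
  rw [Finset.sum_comm]
  have h2 : ∀ t : ZMod n, ∑ j : ZMod n, ((h j * h (j + t) : ℤ) : A) * z ^ t.val
      = if t = 0 then (n : A) else 0 := by
    intro t
    rw [← Finset.sum_mul, ← Int.cast_sum]
    split_ifs with ht
    · subst ht
      simp only [add_zero, hsq, Finset.sum_const, Finset.card_univ, ZMod.card, Int.nsmul_eq_mul, mul_one, Int.cast_natCast, ZMod.val_zero, pow_zero]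
    · rw [hcorr t ht]; simp
  simp_rw [h2]
  simp only [Finset.sum_ite_eq', Finset.mem_univ, ↓reduceIte]

end ringpart

end Vale.Agent.P033
end
end

section

section

namespace Vale.Agent.P033

open IsDedekindDomain

section val

variable {O : Type*} [CommRing O] [IsDedekindDomain O]

theorem dvd_of_forall_intValuation_le {x y : O} (hx : x ≠ 0)
    (h : ∀ v : HeightOneSpectrum O, v.intValuation y ≤ v.intValuation x) : x ∣ y := by
  let K := FractionRing O
  have hxK : algebraMap O K x ≠ 0 := by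
    simpa only [ne_eq, FaithfulSMul.algebraMap_eq_zero_iff] using hx
  obtain ⟨z, hz⟩ := HeightOneSpectrum.mem_integers_of_valuation_le_one (R := O) K
    (algebraMap O K y / algebraMap O K x) (by
      intro v
      rw [map_div₀, HeightOneSpectrum.valuation_of_algebraMap,
        HeightOneSpectrum.valuation_of_algebraMap]
      have h0 : v.intValuation x ≠ 0 := v.intValuation_ne_zero x hx
      rw [div_le_one₀ (zero_lt_iff.mpr h0)]
      exact h v)
  refine ⟨z, ?_⟩
  rw [eq_div_iff hxK, ← map_mul] at hz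
  rw [mul_comm]
  exact (FaithfulSMul.algebraMap_injective O K hz).symm

theorem mem_pow_iff_of_stable (w : HeightOneSpectrum O) (σ : O ≃+* O)
    (hst : ∀ x, x ∈ w.asIdeal ↔ σ x ∈ w.asIdeal) (k : ℕ) (x : O) :
    x ∈ w.asIdeal ^ k ↔ σ x ∈ w.asIdeal ^ k := by
  have h1 : Ideal.map σ w.asIdeal = w.asIdeal := by
    ext y
    rw [Ideal.mem_map_iff_of_surjective σ σ.surjective]
    constructor
    · rintro ⟨x, hx, rfl⟩
      exact (hst x).mp hx
    · intro hy
      refine ⟨σ.symm y, ?_, by simp⟩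
      rw [hst]; simpa using hy
  have h2 : Ideal.map σ (w.asIdeal ^ k) = w.asIdeal ^ k := by
    rw [Ideal.map_pow, h1]
  constructor
  · intro hx
    rw [← h2]
    exact Ideal.mem_map_of_mem _ hx
  · intro hx
    rw [← h2, Ideal.mem_map_iff_of_surjective σ σ.surjective] at hx
    obtain ⟨y, hy, hyx⟩ := hx
    rwa [← σ.injective hyx]

theorem intValuation_eq_of_stable (w : HeightOneSpectrum O) (σ : O ≃+* O)
    (hst : ∀ x, x ∈ w.asIdeal ↔ σ x ∈ w.asIdeal) (x : O) :
    w.intValuation (σ x) = w.intValuation x := by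
  by_cases hx : x = 0
  · simp only [hx, map_zero]
  have hx' : σ x ≠ 0 := by simpa using hx
  apply le_antisymm
  · rw [w.intValuation_eq_exp_neg_multiplicity hx, HeightOneSpectrum.intValuation_le_pow_iff_mem,
      ← mem_pow_iff_of_stable w σ hst, ← HeightOneSpectrum.intValuation_le_pow_iff_mem,
      w.intValuation_eq_exp_neg_multiplicity hx]
  · rw [w.intValuation_eq_exp_neg_multiplicity hx', HeightOneSpectrum.intValuation_le_pow_iff_mem,
      mem_pow_iff_of_stable w σ hst, ← HeightOneSpectrum.intValuation_le_pow_iff_mem,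
      w.intValuation_eq_exp_neg_multiplicity hx']

theorem exists_prime_mem (w : HeightOneSpectrum O) : ∀ n : ℕ, n ≠ 0 → (n : O) ∈ w.asIdeal →
    ∃ q : ℕ, q.Prime ∧ q ∣ n ∧ (q : O) ∈ w.asIdeal := by
  intro n
  induction n using Nat.strong_induction_on with
  | _ n ih =>
    intro hn hmem
    have h1 : n ≠ 1 := by
      rintro rfl
      exact w.isPrime.ne_top ((Ideal.eq_top_iff_one _).mpr (by simpa only [Nat.cast_one] using hmem))
    have hp := Nat.minFac_prime h1
    obtain ⟨k, hk⟩ := Nat.minFac_dvd n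
    have hmem' : ((n.minFac : ℕ) : O) * (k : O) ∈ w.asIdeal := by
      rw [← Nat.cast_mul, ← hk]; exact hmem
    rcases w.isPrime.mem_or_mem hmem' with h | h
    · exact ⟨n.minFac, hp, Nat.minFac_dvd n, h⟩
    · have hk0 : k ≠ 0 := by rintro rfl; exact hn (by rw [hk]; simp)
      have hkn : k < n := by
        have h2 := hp.two_le
        calc k < n.minFac * k := by nlinarith only [h2, Nat.pos_of_ne_zero hk0]
          _ = n := hk.symm
      obtain ⟨q, hq, hqd, hqm⟩ := ih k hkn hk0 h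
      exact ⟨q, hq, hqd.trans ⟨n.minFac, by rw [mul_comm]; exact hk⟩, hqm⟩

theorem notMem_of_coprime (w : HeightOneSpectrum O) {q a : ℕ} (hq : (q : O) ∈ w.asIdeal)
    (h : Nat.Coprime q a) : (a : O) ∉ w.asIdeal := by
  intro ha
  have h1 : IsCoprime (q : ℤ) (a : ℤ) := Nat.isCoprime_iff_coprime.mpr h
  obtain ⟨u, v, huv⟩ := h1
  have h2 : ((u : ℤ) : O) * (q : O) + ((v : ℤ) : O) * (a : O) = 1 := by
    have := congrArg (Int.cast : ℤ → O) huv
    push_cast at this
    exact this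
  apply w.isPrime.ne_top
  rw [Ideal.eq_top_iff_one, ← h2]
  exact Ideal.add_mem _ (Ideal.mul_mem_left _ _ hq) (Ideal.mul_mem_left _ _ ha)

end val

end Vale.Agent.P033
end
end

section

section

namespace Vale.Agent.P033

open IsDedekindDomain

section descent

variable {O : Type*} [CommRing O]

/-- The twisted trace `∑_{k<r} η^{ck} σ^k(x)`. -/
noncomputable def T (σ : O ≃+* O) (η : O) (r c : ℕ) (x : O) : O :=
  ∑ k ∈ Finset.range r, η ^ (c * k) * ((σ : RingAut O) ^ k) x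

theorem T_add (σ : O ≃+* O) (η : O) (r c : ℕ) (x y : O) :
    T σ η r c (x + y) = T σ η r c x + T σ η r c y := by
  simp only [T, RingAut.coe_pow, iterate_map_add, mul_add, Finset.sum_add_distrib]

theorem T_sum {ι : Type*} (σ : O ≃+* O) (η : O) (r c : ℕ) (s : Finset ι) (f : ι → O) :
    T σ η r c (∑ i ∈ s, f i) = ∑ i ∈ s, T σ η r c (f i) := by
  simp only [T, map_sum, Finset.mul_sum]
  rw [Finset.sum_comm]

theorem pow_fix (σ : O ≃+* O) {s : O} (hs : σ s = s) (k : ℕ) :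
    ((σ : RingAut O) ^ k) s = s := by
  induction k with
  | zero => simp
  | succ k ih => rw [pow_succ, RingAut.mul_apply, hs, ih]

theorem T_mul (σ : O ≃+* O) (η : O) (r c : ℕ) {s : O} (hs : σ s = s) (x : O) :
    T σ η r c (s * x) = s * T σ η r c x := by
  simp only [T, map_mul, Finset.mul_sum, pow_fix σ hs]
  refine Finset.sum_congr rfl fun k _ => by ring

theorem T_intCast_mul (σ : O ≃+* O) (η : O) (r c : ℕ) (a : ℤ) (x : O) :
    T σ η r c ((a : O) * x) = (a : O) * T σ η r c x :=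
  T_mul σ η r c (by simp) x

/-- Data for the descent. -/
structure Setup (σ : O ≃+* O) (z : O) (n r : ℕ) : Prop where
  prim : IsPrimitiveRoot z n
  top : Algebra.adjoin ℤ {z} = ⊤
  npos : 0 < n
  rpos : 0 < r
  rr : r * r ∣ n
  sig : σ z = z ^ (1 + n / r)

variable {σ : O ≃+* O} {z : O} {n r : ℕ}

theorem Setup.dvd (S : Setup σ z n r) : r ∣ n := (Dvd.intro _ rfl).trans S.rr

theorem Setup.fix_of_dvd (S : Setup σ z n r) {a : ℕ} (ha : n ∣ (n / r) * a) :
    σ (z ^ a) = z ^ a := by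
  rw [map_pow, S.sig, ← pow_mul]
  apply pow_eq_pow_of_modEq S.prim.pow_eq_one
  rw [add_mul, one_mul]
  have : n / r * a ≡ 0 [MOD n] := (Nat.modEq_zero_iff_dvd).mpr ha
  simpa only [Nat.add_modEq_left_iff, add_zero] using (Nat.ModEq.refl a).add this

theorem Setup.eta_fix (S : Setup σ z n r) : σ (z ^ (n / r)) = z ^ (n / r) := by
  apply S.fix_of_dvd
  obtain ⟨k, hk⟩ := S.rr
  have hr := S.rpos
  have : n / r = r * k := by
    rw [hk, mul_assoc, Nat.mul_div_cancel_left _ hr]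
  rw [this, hk]
  exact ⟨k, by ring⟩

theorem Setup.pow_z (S : Setup σ z n r) (k : ℕ) :
    ((σ : RingAut O) ^ k) z = z * (z ^ (n / r)) ^ k := by
  induction k with
  | zero => simp
  | succ k ih =>
    rw [pow_succ, RingAut.mul_apply, S.sig, pow_add, pow_one, map_mul, ih,
      pow_fix σ S.eta_fix]
    ring

theorem Setup.eta_pow (S : Setup σ z n r) : (z ^ (n / r)) ^ r = 1 := by
  rw [← pow_mul, Nat.div_mul_cancel S.dvd, S.prim.pow_eq_one]

theorem Setup.eta_prim (S : Setup σ z n r) : IsPrimitiveRoot (z ^ (n / r)) r :=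
  S.prim.pow S.npos (by rw [Nat.div_mul_cancel S.dvd])

theorem Setup.pow_r (S : Setup σ z n r) (x : O) : ((σ : RingAut O) ^ r) x = x := by
  have h : (((σ : RingAut O) ^ r : O ≃+* O) : O →+* O).toIntAlgHom = (RingHom.id O).toIntAlgHom := by
    apply AlgHom.ext_of_adjoin_eq_top S.top
    intro y hy
    rw [Set.mem_singleton_iff] at hy
    subst hy
    have := S.pow_z r
    rw [S.eta_pow, mul_one] at this
    simpa only [RingHom.toIntAlgHom_coe, RingHom.coe_coe, RingAut.coe_pow, RingHom.id_apply] using this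
  have := DFunLike.congr_fun h x
  simpa only [RingAut.coe_pow, RingHom.toIntAlgHom_coe, RingHom.coe_coe, RingHom.id_apply] using this

variable [IsDomain O]

theorem Setup.T_pow (S : Setup σ z n r) (c l : ℕ) :
    T σ (z ^ (n / r)) r c (z ^ l) = if r ∣ c + l then (r : O) * z ^ l else 0 := by
  have h1 : T σ (z ^ (n / r)) r c (z ^ l)
      = z ^ l * ∑ k ∈ Finset.range r, ((z ^ (n / r)) ^ (c + l)) ^ k := by
    rw [T, Finset.mul_sum]
    refine Finset.sum_congr rfl fun k _ => ?_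
    rw [map_pow, S.pow_z]
    ring
  rw [h1]
  split_ifs with hd
  · have : (z ^ (n / r)) ^ (c + l) = 1 := by
      obtain ⟨q, hq⟩ := hd
      rw [hq, pow_mul, S.eta_pow, one_pow]
    rw [this]
    simp only [one_pow, Finset.sum_const, Finset.card_range, nsmul_eq_mul, mul_one, mul_comm]
  · have hne : (z ^ (n / r)) ^ (c + l) ≠ 1 := by
      intro h
      exact hd ((S.eta_prim.pow_eq_one_iff_dvd _).mp h)
    have hg := mul_neg_geom_sum ((z ^ (n / r)) ^ (c + l)) r
    have h0 : ((z ^ (n / r)) ^ (c + l)) ^ r = 1 := by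
      rw [← pow_mul, mul_comm, pow_mul, S.eta_pow, one_pow]
    rw [h0, sub_self] at hg
    rcases mul_eq_zero.mp hg with h | h
    · exact absurd (sub_eq_zero.mp h).symm hne
    · rw [h, mul_zero]

theorem Setup.dvd_T (S : Setup σ z n r) (c : ℕ) (y : O) :
    ∃ y', T σ (z ^ (n / r)) r c y = (r : O) * y' := by
  have hy : y ∈ Algebra.adjoin ℤ {z} := by rw [S.top]; trivial
  rw [Algebra.adjoin_singleton_eq_range_aeval] at hy
  obtain ⟨f, hf⟩ := hy
  have hf' : y = ∑ l ∈ Finset.range (f.natDegree + 1), ((f.coeff l : ℤ) : O) * z ^ l := by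
    rw [← hf]
    change Polynomial.aeval z f = _
    rw [Polynomial.aeval_eq_sum_range]
    simp only [zsmul_eq_mul]
  rw [hf', T_sum]
  refine ⟨∑ l ∈ Finset.range (f.natDegree + 1),
    ((f.coeff l : ℤ) : O) * (if r ∣ c + l then z ^ l else 0), ?_⟩
  rw [Finset.mul_sum]
  refine Finset.sum_congr rfl fun l _ => ?_
  rw [T_intCast_mul, S.T_pow]
  split_ifs <;> ring

/-- stability of a prime under `σ`. -/
theorem Setup.stable (S : Setup σ z n r) (w : Ideal O) [hw : w.IsPrime] {q : ℕ} (hq : q.Prime)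
    (hqw : (q : O) ∈ w)
    (j : ℕ) (hj : q ^ j ≡ 1 + n / r [MOD n / q ^ n.factorization q]) (x : O) :
    x ∈ w ↔ σ x ∈ w := by
  have hcharP : CharP (O ⧸ w) q := by
    rw [CharP.charP_iff_prime_eq_zero hq]
    have := (Ideal.Quotient.eq_zero_iff_mem (I := w)).mpr hqw
    simpa only [map_natCast] using this
  haveI := Fact.mk hq
  haveI : ExpChar (O ⧸ w) q := ExpChar.prime hq
  set s := n.factorization q with hs
  let A : O →+* (O ⧸ w) := (iterateFrobenius (O ⧸ w) q (s + j)).comp (Ideal.Quotient.mk w)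
  let B : O →+* (O ⧸ w) := (iterateFrobenius (O ⧸ w) q s).comp
    ((Ideal.Quotient.mk w).comp (σ : O →+* O))
  have hAB : A.toIntAlgHom = B.toIntAlgHom := by
    apply AlgHom.ext_of_adjoin_eq_top S.top
    intro y hy
    rw [Set.mem_singleton_iff] at hy
    subst hy
    change iterateFrobenius (O ⧸ w) q (s + j) (Ideal.Quotient.mk w y) =
      iterateFrobenius (O ⧸ w) q s (Ideal.Quotient.mk w (σ y))
    rw [iterateFrobenius_def, iterateFrobenius_def, S.sig, map_pow, ← pow_mul]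
    apply pow_eq_pow_of_modEq (n := n)
    · rw [← map_pow, S.prim.pow_eq_one, map_one]
    · have h1 := Nat.ModEq.mul_left' (q ^ s) hj
      rw [Nat.mul_div_cancel' (Nat.ordProj_dvd n q), ← pow_add] at h1
      rw [mul_comm (1 + n / r)]
      exact h1
  have hAB' : ∀ x, A x = B x := fun x => DFunLike.congr_fun hAB x
  have hA : A x = 0 ↔ x ∈ w := by
    change iterateFrobenius (O ⧸ w) q (s + j) (Ideal.Quotient.mk w x) = 0 ↔ _
    rw [iterateFrobenius_def, pow_eq_zero_iff (pow_ne_zero _ hq.ne_zero),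
      Ideal.Quotient.eq_zero_iff_mem]
  have hB : B x = 0 ↔ σ x ∈ w := by
    change iterateFrobenius (O ⧸ w) q s (Ideal.Quotient.mk w (σ x)) = 0 ↔ _
    rw [iterateFrobenius_def, pow_eq_zero_iff (pow_ne_zero _ hq.ne_zero),
      Ideal.Quotient.eq_zero_iff_mem]
  rw [← hA, ← hB, hAB']

end descent

end Vale.Agent.P033
end
end

section

section

namespace Vale.Agent.P033

open IsDedekindDomain WithZero

section omega

variable {O : Type*} [CommRing O] [IsDedekindDomain O] [CharZero O]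
variable {σ : O ≃+* O} {z : O} {n r : ℕ}

theorem stable_pow (w : Ideal O) (hst : ∀ x, x ∈ w ↔ σ x ∈ w) (k : ℕ) (x : O) :
    x ∈ w ↔ ((σ : RingAut O) ^ k) x ∈ w := by
  induction k generalizing x with
  | zero => simp
  | succ k ih => rw [pow_succ, RingAut.mul_apply, ← ih, hst]

/-- existence of an element outside `w` clearing denominators. -/
theorem exists_clear (w : HeightOneSpectrum O) {a x : O} (ha : a ≠ 0)
    (h : w.intValuation x ≤ w.intValuation a) : ∃ d, d ∉ w.asIdeal ∧ a ∣ d * x := by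
  have hsa : Ideal.span {a} ≠ (0 : Ideal O) := by
    rw [Ne, Ideal.zero_eq_bot, Ideal.span_singleton_eq_bot]
    exact ha
  have hfm : FiniteMultiplicity w.asIdeal (Ideal.span {a}) :=
    FiniteMultiplicity.of_prime_left w.prime hsa
  rw [w.intValuation_eq_exp_neg_multiplicity ha,
    HeightOneSpectrum.intValuation_le_pow_iff_mem] at h
  generalize hm : multiplicity w.asIdeal (Ideal.span {a}) = m at h
  obtain ⟨b, hb, hnb⟩ := hfm.exists_eq_pow_mul_and_not_dvd
  rw [hm] at hb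
  have hnb' : ¬ b ≤ w.asIdeal := fun h => hnb (Ideal.dvd_iff_le.mpr h)
  obtain ⟨d, hdb, hdw⟩ := SetLike.not_le_iff_exists.mp hnb'
  refine ⟨d, hdw, ?_⟩
  rw [← Ideal.mem_span_singleton, hb, mul_comm (w.asIdeal ^ m) b]
  exact Ideal.mul_mem_mul hdb h

/-- The norm trick. -/
theorem Setup.norm_trick (S : Setup σ z n r) (w : HeightOneSpectrum O)
    (hst : ∀ x, x ∈ w.asIdeal ↔ σ x ∈ w.asIdeal) {α : O} (hα : σ α = α) (hα0 : α ≠ 0)
    (hαw : α ∈ w.asIdeal) {X Xc : O} (hX : X ≠ 0) {c : ℕ}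
    (hXc : T σ (z ^ (n / r)) r c X = (r : O) * Xc) :
    w.intValuation (α * Xc) ≤ w.intValuation X := by
  classical
  have hex : ∃ k : ℕ, w.intValuation (α ^ (k + 1)) < w.intValuation X := by
    refine ⟨multiplicity w.asIdeal (Ideal.span {X}), ?_⟩
    rw [w.intValuation_eq_exp_neg_multiplicity hX]
    have h1 : α ^ (multiplicity w.asIdeal (Ideal.span {X}) + 1) ∈
        w.asIdeal ^ (multiplicity w.asIdeal (Ideal.span {X}) + 1) := Ideal.pow_mem_pow hαw _
    rw [← HeightOneSpectrum.intValuation_le_pow_iff_mem] at h1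
    refine lt_of_le_of_lt h1 ?_
    rw [exp_lt_exp]
    push_cast
    linarith only []
  have hk := Nat.find_spec hex
  have hmin := fun {m : ℕ} => Nat.find_min hex (m := m)
  set k := Nat.find hex with hkdef
  have hXk : w.intValuation X ≤ w.intValuation (α ^ k) := by
    rcases Nat.eq_zero_or_pos k with h0 | h0
    · rw [h0, pow_zero, map_one]; exact w.intValuation_le_one X
    · have := hmin (m := k - 1) (by omega)
      rw [Nat.sub_add_cancel h0, not_lt] at this
      exact this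
  obtain ⟨d, hdw, hd⟩ := exists_clear w (pow_ne_zero k hα0) hXk
  set s : O := ∏ i ∈ Finset.range r, ((σ : RingAut O) ^ i) d with hs
  have hd0 : d ≠ 0 := by rintro rfl; exact hdw (Submodule.zero_mem _)
  have hsinv : σ s = s := by
    have h1 : d * σ s = s * d := by
      have e1 : σ s = ∏ i ∈ Finset.range r, ((σ : RingAut O) ^ (i + 1)) d := by
        rw [hs, map_prod]
        refine Finset.prod_congr rfl fun i _ => ?_
        rw [pow_succ']
        rfl
      have e2 : ∏ i ∈ Finset.range (r + 1), ((σ : RingAut O) ^ i) d = s * d := by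
        rw [Finset.prod_range_succ, S.pow_r]
      rw [Finset.prod_range_succ'] at e2
      rw [e1, mul_comm]
      simpa only [RingAut.coe_pow, Function.iterate_succ, Function.comp_apply, mul_eq_mul_right_iff, pow_zero,     RingAut.one_apply] using e2
    rw [mul_comm s d] at h1
    exact mul_left_cancel₀ hd0 h1
  have hsw : s ∉ w.asIdeal := by
    rw [hs]
    intro h
    obtain ⟨i, _, hi⟩ := (w.isPrime.prod_mem_iff).mp h
    exact hdw ((stable_pow w.asIdeal hst i d).mpr hi)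
  have hsX : α ^ k ∣ s * X := by
    have : d ∣ s := by
      have h0 : 0 ∈ Finset.range r := Finset.mem_range.mpr S.rpos
      have h1 := Finset.dvd_prod_of_mem (fun i => ((σ : RingAut O) ^ i) d) h0
      simp only [pow_zero, RingAut.one_apply] at h1
      exact h1
    obtain ⟨u, hu⟩ := this
    rw [hu, mul_right_comm]
    exact Dvd.dvd.mul_right hd u
  obtain ⟨Y, hY⟩ := hsX
  obtain ⟨Yc, hYc⟩ := S.dvd_T c Y
  have hαk : σ (α ^ k) = α ^ k := by rw [map_pow, hα]
  have h2 : s * Xc = α ^ k * Yc := by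
    have h3 : T σ (z ^ (n / r)) r c (s * X) = s * ((r : O) * Xc) := by
      rw [T_mul σ _ r c hsinv, hXc]
    have h4 : T σ (z ^ (n / r)) r c (α ^ k * Y) = α ^ k * ((r : O) * Yc) := by
      rw [T_mul σ _ r c hαk, hYc]
    rw [hY, h4] at h3
    have hr0 : (r : O) ≠ 0 := by exact_mod_cast S.rpos.ne'
    apply mul_left_cancel₀ hr0
    linear_combination -h3
  have h5 : w.intValuation Xc ≤ w.intValuation (α ^ k) := by
    have h6 : w.intValuation (s * Xc) = w.intValuation Xc := by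
      rw [map_mul, HeightOneSpectrum.intValuation_eq_one_iff.mpr hsw, one_mul]
    rw [← h6, h2, map_mul]
    exact mul_le_of_le_one_right' (w.intValuation_le_one Yc)
  calc w.intValuation (α * Xc) = w.intValuation α * w.intValuation Xc := map_mul _ _ _
    _ ≤ w.intValuation α * w.intValuation (α ^ k) := by (clear hα0 hk hmin hkdef hXk; gcongr)
    _ = w.intValuation (α ^ (k + 1)) := by rw [← map_mul, pow_succ']
    _ ≤ w.intValuation X := hk.le

theorem Setup.val_T_le (w : HeightOneSpectrum O)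
    (hst : ∀ x, x ∈ w.asIdeal ↔ σ x ∈ w.asIdeal) (η X : O) (r c : ℕ) :
    w.intValuation (T σ η r c X) ≤ w.intValuation X := by
  unfold T
  apply Valuation.map_sum_le
  intro k _
  rw [map_mul]
  have h1 : w.intValuation (((σ : RingAut O) ^ k) X) = w.intValuation X :=
    intValuation_eq_of_stable w ((σ : RingAut O) ^ k) (stable_pow w.asIdeal hst k) X
  rw [h1]
  exact mul_le_of_le_one_left' (w.intValuation_le_one _)

/-- Divisibility of the twisted element. -/
theorem Setup.dvd_omega {m : ℕ} (hnm : n = m ^ 2) {P : Finset ℕ} (hm : 0 < m)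
    (hP : ∀ p ∈ P, p.Prime) (hPm : (∏ p ∈ P, p) ∣ m)
    (S : Setup σ z n (∏ p ∈ P, p)) {v : ℕ}
    (hgood : ∀ q : ℕ, q.Prime → q ∣ m →
      (∃ j, q ^ j ≡ 1 + n / (∏ p ∈ P, p) [MOD n / q ^ n.factorization q]) ∨
      q ^ m.factorization q ∣ v)
    {X X' Xc : O} (hX : X ≠ 0) (hXX' : X * X' = (n : O)) {c : ℕ}
    (hXc : T σ (z ^ (n / ∏ p ∈ P, p)) (∏ p ∈ P, p) c X = ((∏ p ∈ P, p : ℕ) : O) * Xc) :
    X ∣ (v : O) ^ 2 * (∏ p ∈ P, (1 - z ^ (n / p))) * Xc := by
  classical
  subst hnm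
  apply dvd_of_forall_intValuation_le hX
  intro w
  set r := ∏ p ∈ P, p with hr
  have hv1 : w.intValuation ((v : O) ^ 2) ≤ 1 := w.intValuation_le_one _
  have hpi1 : w.intValuation (∏ p ∈ P, (1 - z ^ (m ^ 2 / p))) ≤ 1 := w.intValuation_le_one _
  have hXc1 : w.intValuation Xc ≤ 1 := w.intValuation_le_one _
  have hdivX : w.intValuation ((m ^ 2 : ℕ) : O) ≤ w.intValuation X := by
    rw [← hXX', map_mul]
    exact mul_le_of_le_one_right' (w.intValuation_le_one _)
  by_cases hn : ((m ^ 2 : ℕ) : O) ∈ w.asIdeal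
  · obtain ⟨q, hq, hqn, hqw⟩ := exists_prime_mem w (m ^ 2) (by positivity) hn
    have hqm : q ∣ m := hq.dvd_of_dvd_pow hqn
    rcases hgood q hq hqm with ⟨j, hj⟩ | hbad
    · have hst : ∀ x, x ∈ w.asIdeal ↔ σ x ∈ w.asIdeal := fun x =>
        S.stable w.asIdeal hq hqw j hj x
      by_cases hrw : (r : O) ∈ w.asIdeal
      · -- q ∈ P
        have hqr : q ∣ r := by
          by_contra hnd
          exact notMem_of_coprime w hqw ((Nat.Prime.coprime_iff_not_dvd hq).mpr hnd) hrw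
        have hqP : q ∈ P := by
          obtain ⟨p, hp, hqp⟩ := (Prime.dvd_finsetProd_iff hq.prime _).mp hqr
          have : q = p := (Nat.prime_dvd_prime_iff_eq hq (hP p hp)).mp hqp
          rwa [this]
        set α : O := 1 - z ^ (m ^ 2 / q) with hα
        have hyq : (z ^ (m ^ 2 / q)) ^ q = 1 := by
          rw [← pow_mul, Nat.div_mul_cancel hqn, S.prim.pow_eq_one]
        have hαw : α ∈ w.asIdeal := by
          have hcharP : CharP (O ⧸ w.asIdeal) q := by
            rw [CharP.charP_iff_prime_eq_zero hq]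
            have := (Ideal.Quotient.eq_zero_iff_mem (I := w.asIdeal)).mpr hqw
            simpa only [map_natCast] using this
          have := Fact.mk hq
          rw [← Ideal.Quotient.eq_zero_iff_mem]
          have h1 : (Ideal.Quotient.mk w.asIdeal α) ^ q = 0 := by
            rw [hα, map_sub, sub_pow_char, ← map_pow, ← map_pow, hyq]
            simp only [one_pow, map_one, sub_self]
          exact pow_eq_zero_iff hq.ne_zero |>.mp h1
        have hαfix : σ α = α := by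
          rw [hα, map_sub, map_one, S.fix_of_dvd]
          have h1 : r * q ∣ m ^ 2 := by rw [sq]; exact Nat.mul_dvd_mul hPm hqm
          obtain ⟨k, hk⟩ := h1
          have e1 : m ^ 2 / r = q * k := by
            rw [hk, mul_assoc, Nat.mul_div_cancel_left _ S.rpos]
          have e2 : m ^ 2 / q = r * k := by
            rw [hk, mul_comm r q, mul_assoc, Nat.mul_div_cancel_left _ hq.pos]
          rw [e1, e2, hk]
          exact ⟨k, by ring⟩
        have hα0 : α ≠ 0 := by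
          intro h0
          have h1 : z ^ (m ^ 2 / q) = 1 := (sub_eq_zero.mp h0).symm
          have h2 := (S.prim.pow_eq_one_iff_dvd _).mp h1
          have h3 := Nat.le_of_dvd (Nat.div_pos (Nat.le_of_dvd (by positivity) hqn) hq.pos) h2
          have h4 := Nat.div_lt_self (show 0 < m ^ 2 by positivity) hq.one_lt
          omega
        have h1 := S.norm_trick w hst hαfix hα0 hαw hX hXc
        have h2 : ∏ p ∈ P, (1 - z ^ (m ^ 2 / p)) =
            α * ∏ p ∈ P.erase q, (1 - z ^ (m ^ 2 / p)) := by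
          rw [← Finset.mul_prod_erase P _ hqP]
        calc w.intValuation ((v : O) ^ 2 * (∏ p ∈ P, (1 - z ^ (m ^ 2 / p))) * Xc)
            = w.intValuation ((v : O) ^ 2 * (∏ p ∈ P.erase q, (1 - z ^ (m ^ 2 / p)))) *
              w.intValuation (α * Xc) := by rw [← map_mul, h2]; congr 1; ring
          _ ≤ w.intValuation (α * Xc) := mul_le_of_le_one_left' (w.intValuation_le_one _)
          _ ≤ w.intValuation X := h1
      · have h1 := Setup.val_T_le (σ := σ) w hst (z ^ (m ^ 2 / r)) X r c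
        rw [hXc, map_mul, HeightOneSpectrum.intValuation_eq_one_iff.mpr hrw, one_mul] at h1
        rw [map_mul]
        exact (mul_le_of_le_one_left' (w.intValuation_le_one _)).trans h1
    · -- bad prime
      have h1 : w.intValuation ((v : O)) ≤ w.intValuation ((m : ℕ) : O) := by
        have hm' : m = q ^ m.factorization q * (m / q ^ m.factorization q) :=
          (Nat.ordProj_mul_ordCompl_eq_self m q).symm
        have hcop : Nat.Coprime q (m / q ^ m.factorization q) :=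
          Nat.coprime_ordCompl hq hm.ne'
        have h2 : ((m / q ^ m.factorization q : ℕ) : O) ∉ w.asIdeal :=
          notMem_of_coprime w hqw hcop
        have h3 : w.intValuation ((m : ℕ) : O) =
            w.intValuation ((q ^ m.factorization q : ℕ) : O) := by
          conv_lhs => rw [hm']
          rw [Nat.cast_mul, map_mul, HeightOneSpectrum.intValuation_eq_one_iff.mpr h2, mul_one]
        rw [h3]
        obtain ⟨u, hu⟩ := hbad
        rw [hu, Nat.cast_mul, map_mul]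
        exact mul_le_of_le_one_right' (w.intValuation_le_one _)
      have h2 : w.intValuation ((v : O) ^ 2) ≤ w.intValuation X := by
        refine le_trans ?_ hdivX
        rw [Nat.cast_pow, map_pow, map_pow]
        (clear σ z P hP X X' Xc hX c hXX' r hPm S hgood hXc hr hv1 hpi1 hXc1 hdivX hn hqn hqm; gcongr)
      rw [mul_assoc, map_mul]
      exact (mul_le_of_le_one_right' (w.intValuation_le_one _)).trans h2
  · have h1 : w.intValuation X = 1 := by
      apply le_antisymm (w.intValuation_le_one _)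
      rw [← HeightOneSpectrum.intValuation_eq_one_iff.mpr hn]
      exact hdivX
    rw [h1]
    exact w.intValuation_le_one _

end omega

end Vale.Agent.P033
end
end

section

section

namespace Vale.Agent.P033

open NumberField Finset

section embed

/-- AM-GM for embeddings. -/
theorem card_mul_le_sum_norm_sq {K : Type*} [Field K] [NumberField K] (x : K) (hxK : x ≠ 0)
    {v : ℕ} (hv : 0 < v)
    (hnorm : (v : ℝ) ^ Fintype.card (K →ₐ[ℚ] ℂ) ≤ ∏ φ : K →ₐ[ℚ] ℂ, ‖φ x‖) :
    (Fintype.card (K →ₐ[ℚ] ℂ) : ℝ) * v ^ 2 ≤ ∑ φ : K →ₐ[ℚ] ℂ, ‖φ x‖ ^ 2 := by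
  have hvR : (0 : ℝ) < v := by exact_mod_cast hv
  have hpos : ∀ φ : K →ₐ[ℚ] ℂ, 0 < ‖φ x‖ := fun φ => by
    rw [norm_pos_iff]
    exact (map_ne_zero φ).mpr hxK
  have h1 : ∀ φ : K →ₐ[ℚ] ℂ,
      (v : ℝ) ^ 2 * (1 + 2 * (Real.log ‖φ x‖ - Real.log v)) ≤ ‖φ x‖ ^ 2 := by
    intro φ
    have h2 := Real.log_le_sub_one_of_pos (show 0 < ‖φ x‖ ^ 2 / (v : ℝ) ^ 2 by
      have := hpos φ
      (clear hnorm hvR; positivity))
    rw [Real.log_div (pow_pos (hpos φ) 2).ne' (pow_pos hvR 2).ne', Real.log_pow, Real.log_pow] at h2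
    push_cast at h2
    have h3 : 1 + 2 * (Real.log ‖φ x‖ - Real.log v) ≤ ‖φ x‖ ^ 2 / (v : ℝ) ^ 2 := by (clear hxK hv hnorm hvR hpos; linarith)
    rw [le_div_iff₀ (by positivity)] at h3
    (clear hxK hv hnorm hvR hpos h2; linarith)
  have hlog : (Fintype.card (K →ₐ[ℚ] ℂ) : ℝ) * Real.log v ≤
      ∑ φ : K →ₐ[ℚ] ℂ, Real.log ‖φ x‖ := by
    rw [← Real.log_prod (fun φ _ => (hpos φ).ne'), ← Real.log_pow]
    exact Real.log_le_log (by positivity) hnorm
  calc (Fintype.card (K →ₐ[ℚ] ℂ) : ℝ) * v ^ 2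
      ≤ Fintype.card (K →ₐ[ℚ] ℂ) * v ^ 2 + v ^ 2 * (2 * (∑ φ : K →ₐ[ℚ] ℂ, Real.log ‖φ x‖
          - (Fintype.card (K →ₐ[ℚ] ℂ) : ℝ) * Real.log v)) := by
        have : 0 ≤ (v : ℝ) ^ 2 * (2 * (∑ φ : K →ₐ[ℚ] ℂ, Real.log ‖φ x‖
          - (Fintype.card (K →ₐ[ℚ] ℂ) : ℝ) * Real.log v)) := by
          apply mul_nonneg (by positivity)
          linarith
        linarith
    _ = ∑ φ : K →ₐ[ℚ] ℂ, ((v : ℝ) ^ 2 * (1 + 2 * (Real.log ‖φ x‖ - Real.log v))) := by
        rw [← Finset.mul_sum, Finset.sum_add_distrib, ← Finset.mul_sum, Finset.sum_sub_distrib]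
        simp only [AlgHom.card, sum_const, card_univ, nsmul_eq_mul, mul_one]
        ring
    _ ≤ _ := Finset.sum_le_sum fun φ _ => h1 φ

/-- The absolute value of the integer norm is the product over the embeddings. -/
theorem natAbs_norm_eq_prod {K : Type*} [Field K] [NumberField K] (x : 𝓞 K) :
    ((Algebra.norm ℤ x).natAbs : ℝ) = ∏ φ : K →ₐ[ℚ] ℂ, ‖φ (x : K)‖ := by
  have h1 := Algebra.norm_eq_prod_embeddings ℚ ℂ (x : K)
  have h2 : ‖algebraMap ℚ ℂ (Algebra.norm ℚ (x : K))‖ = ∏ φ : K →ₐ[ℚ] ℂ, ‖φ (x : K)‖ := by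
    rw [h1, norm_prod]
  rw [← h2]
  have h3 : Algebra.norm ℚ (x : K) = ((Algebra.norm ℤ x : ℤ) : ℚ) :=
    (Algebra.coe_norm_int x).symm
  rw [h3]
  simp only [Nat.cast_natAbs, Int.cast_abs, map_intCast, Complex.norm_intCast]

/-- Parseval on `ZMod n`. -/
theorem parseval (n : ℕ) [NeZero n] (a : ZMod n → ℂ) :
    ∑ k : ZMod n, ‖∑ i : ZMod n, a i * ZMod.stdAddChar (k * i)‖ ^ 2 = n * ∑ i, ‖a i‖ ^ 2 := by
  have key : (∑ k : ZMod n, (‖∑ i : ZMod n, a i * ZMod.stdAddChar (k * i)‖ ^ 2 : ℝ) : ℂ) =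
      ((n * ∑ i, ‖a i‖ ^ 2 : ℝ) : ℂ) := by
    push_cast
    have h1 : ∀ w : ℂ, ((‖w‖ : ℂ)) ^ 2 = w * (starRingEnd ℂ) w := by
      intro w
      rw [Complex.mul_conj, Complex.normSq_eq_norm_sq]; push_cast; rfl
    simp_rw [h1, map_sum, map_mul, Finset.sum_mul_sum]
    have h2 : ∀ j : ZMod n, (starRingEnd ℂ) (ZMod.stdAddChar j) = ZMod.stdAddChar (-j) := by
      intro j
      rw [AddChar.map_neg_eq_conj]
    simp_rw [h2]
    rw [Finset.sum_comm]
    rw [Finset.mul_sum]
    refine Finset.sum_congr rfl fun i _ => ?_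
    rw [Finset.sum_comm]
    have h3 : ∀ j : ZMod n, ∑ k : ZMod n,
        a i * ZMod.stdAddChar (k * i) * ((starRingEnd ℂ) (a j) * ZMod.stdAddChar (-(k * j))) =
        if i = j then (n : ℂ) * (a i * (starRingEnd ℂ) (a j)) else 0 := by
      intro j
      have h4 : ∀ k : ZMod n,
          a i * ZMod.stdAddChar (k * i) * ((starRingEnd ℂ) (a j) * ZMod.stdAddChar (-(k * j))) =
          (a i * (starRingEnd ℂ) (a j)) * ZMod.stdAddChar (k * (i - j)) := by
        intro k
        have : k * (i - j) = k * i + -(k * j) := by ring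
        rw [this, AddChar.map_add_eq_mul]
        ring
      simp_rw [h4]
      rw [← Finset.mul_sum, AddChar.sum_mulShift _ (ZMod.isPrimitive_stdAddChar n)]
      simp only [sub_eq_zero, ZMod.card]
      split_ifs <;> simp [mul_comm]
    simp_rw [h3]
    simp
  exact_mod_cast key

end embed

end Vale.Agent.P033
end
end

section

section

namespace Vale.Agent.P033

open NumberField Finset

set_option maxSynthPendingDepth 3

section key

set_option backward.isDefEq.respectTransparency false in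
theorem exists_cyc (n : ℕ) [NeZero n] :
    ∃ (K : Type) (_ : Field K) (_ : NumberField K), IsCyclotomicExtension {n} ℚ K := by
  refine ⟨CyclotomicField n ℚ, inferInstance, inferInstance, inferInstance⟩

theorem exists_sigma (n : ℕ) [NeZero n] (K : Type*) [Field K] [NumberField K]
    [IsCyclotomicExtension {n} ℚ K] (t : ℕ) (ht : t.Coprime n) :
    ∃ σ : 𝓞 K ≃+* 𝓞 K, σ (IsCyclotomicExtension.zeta_spec n ℚ K).toInteger =
      (IsCyclotomicExtension.zeta_spec n ℚ K).toInteger ^ t := by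
  have hirr : Irreducible (Polynomial.cyclotomic n ℚ) :=
    Polynomial.cyclotomic.irreducible_rat (NeZero.pos n)
  have hprim := (IsCyclotomicExtension.zeta_spec n ℚ K).pow_of_coprime t ht
  let g : K ≃ₐ[ℚ] K := IsCyclotomicExtension.fromZetaAut hprim hirr
  have hg : g (IsCyclotomicExtension.zeta n ℚ K) = IsCyclotomicExtension.zeta n ℚ K ^ t :=
    IsCyclotomicExtension.fromZetaAut_spec hprim hirr
  refine ⟨RingOfIntegers.mapRingEquiv (g : K ≃+* K), ?_⟩
  apply RingOfIntegers.ext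
  rw [RingOfIntegers.mapRingEquiv_apply]
  have h2 : (((IsCyclotomicExtension.zeta_spec n ℚ K).toInteger ^ t : 𝓞 K) : K) =
      IsCyclotomicExtension.zeta n ℚ K ^ t :=
    map_pow (algebraMap (𝓞 K) K) _ _
  rw [h2]
  exact hg

/-- number of `i` in `ZMod n` with `r ∣ c + i` -/
theorem card_class_le (n r c : ℕ) [NeZero n] (hr : 0 < r) (hrn : r ∣ n) :
    (Finset.univ.filter (fun i : ZMod n => r ∣ c + i.val)).card ≤ n / r := by
  have : (Finset.univ.filter (fun i : ZMod n => r ∣ c + i.val)).card ≤ (Finset.range (n / r)).card := by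
    apply Finset.card_le_card_of_injOn (fun i => i.val / r)
    · intro i _
      simp only [Finset.coe_range, Set.mem_Iio]
      rw [Nat.div_lt_iff_lt_mul hr, Nat.div_mul_cancel hrn]
      exact ZMod.val_lt i
    · intro i hi j hj hij
      simp only [Finset.coe_filter, Finset.mem_univ, true_and, Set.mem_ofPred_eq] at hi hj
      simp only at hij
      apply ZMod.val_injective n
      have h1 : i.val % r = j.val % r := by
        have h2 : c + i.val ≡ c + j.val [MOD r] := by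
          rw [Nat.ModEq, Nat.mod_eq_zero_of_dvd hi, Nat.mod_eq_zero_of_dvd hj]
        exact Nat.ModEq.add_left_cancel' c h2
      rw [← Nat.div_add_mod i.val r, ← Nat.div_add_mod j.val r, hij, h1]
  simpa only [ge_iff_le, card_range] using this

theorem sum_T_eq {O : Type*} [CommRing O] [IsDomain O] {σ : O ≃+* O} {z : O} {n r : ℕ}
    (S : Setup σ z n r) (x : O) :
    ∑ c ∈ range r, T σ (z ^ (n / r)) r c x = (r : O) * x := by
  unfold T
  rw [Finset.sum_comm]
  have h : ∀ k ∈ range r, ∑ c ∈ range r, (z ^ (n / r)) ^ (c * k) * ((σ : RingAut O) ^ k) x =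
      if k = 0 then (r : O) * x else 0 := by
    intro k hk
    rw [← Finset.sum_mul]
    split_ifs with h0
    · subst h0; simp only [mul_zero, pow_zero, sum_const, card_range, nsmul_eq_mul, mul_one, RingAut.one_apply]
    · have hne : (z ^ (n / r)) ^ k ≠ 1 :=
        S.eta_prim.pow_ne_one_of_pos_of_lt h0 (Finset.mem_range.mp hk)
      have hg := mul_neg_geom_sum ((z ^ (n / r)) ^ k) r
      have h1 : ((z ^ (n / r)) ^ k) ^ r = 1 := by
        rw [← pow_mul, mul_comm, pow_mul, S.eta_pow, one_pow]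
      rw [h1, sub_self] at hg
      rcases mul_eq_zero.mp hg with h | h
      · exact absurd (sub_eq_zero.mp h).symm hne
      · have : ∑ c ∈ range r, (z ^ (n / r)) ^ (c * k) = 0 := by
          rw [← h]
          refine Finset.sum_congr rfl fun c _ => ?_
          rw [← pow_mul ((z ^ (n / r))) k c, mul_comm]
        rw [this, zero_mul]
  rw [Finset.sum_congr rfl h]
  rw [Finset.sum_ite_eq' (range r) 0]
  simp only [mem_range, S.rpos, ↓reduceIte]

/-- The key inequality (general form). -/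
theorem key_ineq {n m : ℕ} [NeZero n] (hnm : n = m ^ 2) (h : ZMod n → ℤ)
    (hsq : ∀ i, h i * h i = 1)
    (hcorr : ∀ t : ZMod n, t ≠ 0 → ∑ i, h i * h (i + t) = 0)
    (P : Finset ℕ) (hP : ∀ p ∈ P, p.Prime) (hPm : (∏ p ∈ P, p) ∣ m) {v : ℕ} (hvm : v ∣ m)
    (hvc : v.Coprime (m / v))
    (hgood : ∀ q : ℕ, q.Prime → q ∣ m →
      (∃ j, q ^ j ≡ 1 + n / (∏ p ∈ P, p) [MOD n / q ^ n.factorization q]) ∨
      q ^ m.factorization q ∣ v) :
    (∏ p ∈ P, p) * n.totient ≤ 4 ^ P.card * v ^ 2 * n := by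
  classical
  have hn0 : 0 < n := NeZero.pos n
  have hm : 0 < m := by
    rcases Nat.eq_zero_or_pos m with h0 | h0
    · rw [hnm, h0] at hn0; simp at hn0
    · exact h0
  have hv : 0 < v := Nat.pos_of_dvd_of_pos hvm hm
  set r := ∏ p ∈ P, p with hr
  have hrpos : 0 < r := Finset.prod_pos fun p hp => (hP p hp).pos
  have hrr : r * r ∣ n := by rw [hnm, sq]; exact Nat.mul_dvd_mul hPm hPm
  have hrn : r ∣ n := (Dvd.intro _ rfl).trans hrr
  -- coprimality
  have hcop : (1 + n / r).Coprime n := by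
    have h1 : m ∣ n / r := by
      obtain ⟨s, hs⟩ := hPm
      refine ⟨s, ?_⟩
      rw [Nat.div_eq_iff_eq_mul_left hrpos hrn, hnm, mul_assoc, mul_comm s r, ← hs, sq]
    obtain ⟨s, hs⟩ := h1
    rw [hs, hnm]
    apply Nat.Coprime.pow_right
    simp
  obtain ⟨K, _, _, _⟩ := exists_cyc n
  have hζ := IsCyclotomicExtension.zeta_spec n ℚ K
  obtain ⟨σ, hσ⟩ := exists_sigma n K (1 + n / r) hcop
  set z : 𝓞 K := hζ.toInteger with hz
  have hzprim : IsPrimitiveRoot z n := hζ.toInteger_isPrimitiveRoot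
  have S : Setup σ z n r :=
    { prim := hzprim
      top := IsCyclotomicExtension.Rat.adjoin_singleton_eq_top hζ
      npos := hn0
      rpos := hrpos
      rr := hrr
      sig := hσ }
  set X : 𝓞 K := ∑ i : ZMod n, ((h i : ℤ) : 𝓞 K) * z ^ i.val with hX
  set X' : 𝓞 K := ∑ i : ZMod n, ((h i : ℤ) : 𝓞 K) * z ^ (-i).val with hX'
  have hXX' : X * X' = ((n : ℕ) : 𝓞 K) :=
    ring_corr n z hzprim.pow_eq_one h hsq (fun t ht => by simpa only using hcorr t ht)
  have hX0 : X ≠ 0 := by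
    intro h0
    rw [h0, zero_mul] at hXX'
    have : ((n : ℕ) : 𝓞 K) ≠ 0 := by exact_mod_cast hn0.ne'
    exact this hXX'.symm
  -- components
  let Xc : ℕ → 𝓞 K := fun c => ∑ i : ZMod n,
    ((h i : ℤ) : 𝓞 K) * (if r ∣ c + i.val then z ^ i.val else 0)
  have hTXc : ∀ c, T σ (z ^ (n / r)) r c X = ((r : ℕ) : 𝓞 K) * Xc c := by
    intro c
    rw [hX, T_sum, Finset.mul_sum]
    refine Finset.sum_congr rfl fun i _ => ?_
    rw [T_intCast_mul, S.T_pow]
    split_ifs <;> ring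
  obtain ⟨c, hc⟩ : ∃ c, Xc c ≠ 0 := by
    by_contra hall
    push Not at hall
    have h1 := sum_T_eq S X
    rw [Finset.sum_eq_zero (fun c _ => by rw [hTXc, hall c, mul_zero])] at h1
    have hr0 : ((r : ℕ) : 𝓞 K) ≠ 0 := by exact_mod_cast hrpos.ne'
    rcases mul_eq_zero.mp h1.symm with h2 | h2
    · exact hr0 h2
    · exact hX0 h2
  obtain ⟨Ω, hΩ⟩ := Setup.dvd_omega hnm hm hP hPm S hgood hX0 hXX' (hTXc c)
  set π : 𝓞 K := ∏ p ∈ P, (1 - z ^ (n / p)) with hπ
  have hπ0 : π ≠ 0 := by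
    rw [hπ, Finset.prod_ne_zero_iff]
    intro p hp h0
    have hpm : p ∣ m := (Finset.dvd_prod_of_mem _ hp).trans hPm
    have hpn : p ∣ n := hpm.trans (Dvd.intro_left m (by rw [hnm, sq]))
    have h1 : z ^ (n / p) = 1 := (sub_eq_zero.mp h0).symm
    have h2 := (S.prim.pow_eq_one_iff_dvd _).mp h1
    have h3 := Nat.le_of_dvd (Nat.div_pos (Nat.le_of_dvd hn0 hpn) (hP p hp).pos) h2
    have h4 := Nat.div_lt_self hn0 (hP p hp).one_lt
    omega
  have hΩ0 : Ω ≠ 0 := by
    rintro rfl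
    rw [mul_zero] at hΩ
    have hv0 : (v : 𝓞 K) ≠ 0 := by exact_mod_cast hv.ne'
    exact mul_ne_zero (mul_ne_zero (pow_ne_zero 2 hv0) hπ0) hc hΩ
  -- embeddings
  have hemb : ∀ φ : K →ₐ[ℚ] ℂ, ∃ k : ZMod n, ∀ i : ZMod n,
      φ ((z : K) ^ i.val) = ZMod.stdAddChar (k * i) := by
    intro φ
    have h1 : (φ (z : K)) ^ n = 1 := by
      rw [← map_pow, ← map_pow, S.prim.pow_eq_one]; simp only [map_one]
    have hprimC : IsPrimitiveRoot (ZMod.stdAddChar (1 : ZMod n) : ℂ) n := by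
      have := Complex.isPrimitiveRoot_exp n hn0.ne'
      convert this using 1
      have h2 := ZMod.stdAddChar_coe (N := n) 1
      simpa only [Int.cast_one, mul_one] using h2
    obtain ⟨k, _, hk⟩ := hprimC.eq_pow_of_pow_eq_one h1
    refine ⟨(k : ZMod n), fun i => ?_⟩
    rw [map_pow, ← hk, ← pow_mul, ← AddChar.map_nsmul_eq_pow]
    congr 1
    simp
  choose κ hκ using hemb
  have hκinj : Function.Injective κ := by
    intro φ ψ hφψ
    have h1 : φ (z : K) = ψ (z : K) := by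
      by_cases h1n : n = 1
      · have hz1 : (z : 𝓞 K) = 1 := by
          have := S.prim.pow_eq_one
          rwa [h1n, pow_one] at this
        rw [hz1]; simp only [map_one]
      · have h2 := hκ φ 1
        have h3 := hκ ψ 1
        have hval : (1 : ZMod n).val = 1 := by
          have : Fact (1 < n) := ⟨by omega⟩
          exact ZMod.val_one n
        rw [hval, pow_one] at h2 h3
        rw [h2, h3, hφψ]
    apply (hζ.powerBasis ℚ).algHom_ext
    rw [IsPrimitiveRoot.powerBasis_gen]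
    exact h1
  have hnormX : ∀ φ : K →ₐ[ℚ] ℂ, ‖φ (X : K)‖ ^ 2 = ((n : ℕ) : ℝ) := by
    intro φ
    have h1 : φ (X : K) * φ (X' : K) = ((n : ℕ) : ℂ) := by
      have := congrArg (fun y : 𝓞 K => φ (y : K)) hXX'
      simpa only [map_mul, map_natCast] using this
    have h2 : φ (X' : K) = (starRingEnd ℂ) (φ (X : K)) := by
      rw [hX, hX']
      simp only [map_sum, map_mul, map_intCast]
      refine Finset.sum_congr rfl fun i _ => ?_
      congr 1
      have e1 : φ ((z ^ (-i).val : 𝓞 K) : K) = ZMod.stdAddChar (κ φ * (-i)) := by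
        rw [← hκ φ (-i)]; simp only [map_pow]
      have e2 : φ ((z ^ i.val : 𝓞 K) : K) = ZMod.stdAddChar (κ φ * i) := by
        rw [← hκ φ i]; simp only [map_pow]
      rw [e1, e2, mul_neg, AddChar.map_neg_eq_conj]
    rw [h2, Complex.mul_conj, Complex.normSq_eq_norm_sq] at h1
    exact_mod_cast h1
  have hnormπ : ∀ φ : K →ₐ[ℚ] ℂ, ‖φ (π : K)‖ ≤ 2 ^ P.card := by
    intro φ
    rw [hπ]
    simp only [map_prod, norm_prod, map_sub, map_one, map_pow]
    calc ∏ p ∈ P, ‖1 - φ (z : K) ^ (n / p)‖ ≤ ∏ p ∈ P, (2 : ℝ) := by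
          apply Finset.prod_le_prod (fun _ _ => norm_nonneg _)
          intro p _
          have hz1 : ‖φ (z : K)‖ = 1 := by
            have h1 : (φ (z : K)) ^ n = 1 := by
              rw [← map_pow, ← map_pow, S.prim.pow_eq_one]; simp only [map_one]
            exact Complex.norm_eq_one_of_pow_eq_one h1 hn0.ne'
          calc ‖1 - φ (z : K) ^ (n / p)‖ ≤ ‖(1 : ℂ)‖ + ‖φ (z : K) ^ (n / p)‖ := norm_sub_le _ _
            _ = 2 := by rw [norm_pow, hz1]; norm_num
      _ = 2 ^ P.card := by simp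
  have hparts : ∑ φ : K →ₐ[ℚ] ℂ, ‖φ (Xc c : K)‖ ^ 2 ≤ (n : ℕ) * ((n / r : ℕ) : ℝ) := by
    let a : ZMod n → ℂ := fun i => if r ∣ c + i.val then (h i : ℂ) else 0
    have h1 : ∀ φ : K →ₐ[ℚ] ℂ, φ (Xc c : K) = ∑ i : ZMod n, a i * ZMod.stdAddChar (κ φ * i) := by
      intro φ
      simp only [Xc, map_sum, map_mul, map_intCast]
      refine Finset.sum_congr rfl fun i _ => ?_
      simp only [a]
      split_ifs with hd
      · congr 1
        rw [← hκ φ i]; simp only [map_pow]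
      · simp only [map_zero, mul_zero, zero_mul]
    calc ∑ φ : K →ₐ[ℚ] ℂ, ‖φ (Xc c : K)‖ ^ 2
        = ∑ φ : K →ₐ[ℚ] ℂ, (fun k => ‖∑ i : ZMod n, a i * ZMod.stdAddChar (k * i)‖ ^ 2) (κ φ) := by
          refine Finset.sum_congr rfl fun φ _ => ?_
          rw [h1]
      _ = ∑ k ∈ Finset.univ.image κ, ‖∑ i : ZMod n, a i * ZMod.stdAddChar (k * i)‖ ^ 2 := by
          rw [Finset.sum_image (fun x _ y _ hxy => hκinj hxy)]
      _ ≤ ∑ k : ZMod n, ‖∑ i : ZMod n, a i * ZMod.stdAddChar (k * i)‖ ^ 2 :=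
          Finset.sum_le_sum_of_subset_of_nonneg (Finset.subset_univ _) (fun _ _ _ => by (clear m hnm hsq hcorr hP v hvm hvc hn0 hm hv hPm hgood hr hrpos hrr hrn hcop hζ σ z hσ hz hzprim S X hX X' hX' hXX' hX0 Xc hTXc hc Ω π hΩ hπ hπ0 hΩ0 hκ hκinj hnormX hnormπ h1; positivity))
      _ = (n : ℕ) * ∑ i, ‖a i‖ ^ 2 := parseval n a
      _ ≤ (n : ℕ) * ((n / r : ℕ) : ℝ) := by
          apply mul_le_mul_of_nonneg_left _ (by positivity)
          have h2 : ∑ i, ‖a i‖ ^ 2 = ((Finset.univ.filter (fun i : ZMod n => r ∣ c + i.val)).card : ℝ) := by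
            rw [Finset.card_filter]
            push_cast
            refine Finset.sum_congr rfl fun i _ => ?_
            simp only [a]
            split_ifs with hd
            · have h3 := hsq i
              have h4 : ((h i : ℝ)) * (h i : ℝ) = 1 := by exact_mod_cast h3
              rw [Complex.norm_intCast, sq_abs, sq, h4]
            · simp
          rw [h2]
          exact_mod_cast card_class_le n r c hrpos hrn
  have hcardK : (Fintype.card (K →ₐ[ℚ] ℂ) : ℝ) = n.totient := by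
    rw [AlgHom.card, IsCyclotomicExtension.Rat.finrank n K]
  -- the norm of Ω is divisible by `v ^ φ(n)`
  set F := Fintype.card (K →ₐ[ℚ] ℂ) with hF
  have hnormΩ : (v : ℝ) ^ F ≤ ∏ φ : K →ₐ[ℚ] ℂ, ‖φ (Ω : K)‖ := by
    rw [← natAbs_norm_eq_prod]
    have hNX : (Algebra.norm ℤ X).natAbs = m ^ F := by
      have h1 : (((Algebra.norm ℤ X).natAbs : ℝ)) ^ 2 = ((m ^ F : ℕ) : ℝ) ^ 2 := by
        rw [natAbs_norm_eq_prod, ← Finset.prod_pow, Finset.prod_congr rfl (fun φ _ => hnormX φ)]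
        rw [Finset.prod_const, hnm, Finset.card_univ, ← hF]
        push_cast
        ring
      have h2 : ((Algebra.norm ℤ X).natAbs : ℝ) = ((m ^ F : ℕ) : ℝ) :=
        (sq_eq_sq₀ (by (clear * -; positivity)) (by positivity)).mp h1
      exact_mod_cast h2
    have hNv : (Algebra.norm ℤ ((v : 𝓞 K) ^ 2)).natAbs = v ^ (2 * F) := by
      have h1 : (((Algebra.norm ℤ ((v : 𝓞 K) ^ 2)).natAbs : ℝ)) = ((v ^ (2 * F) : ℕ) : ℝ) := by
        rw [natAbs_norm_eq_prod]
        simp only [map_pow, map_natCast, norm_pow, Complex.norm_natCast]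
        rw [Finset.prod_const, Finset.card_univ, ← hF]
        push_cast
        ring
      exact_mod_cast h1
    have hprod := congrArg (fun y : 𝓞 K => (Algebra.norm ℤ y).natAbs) hΩ
    simp only [map_mul, Int.natAbs_mul] at hprod
    rw [hNX, hNv] at hprod
    obtain ⟨u, hu⟩ := hvm
    have hvu : v.Coprime u := by
      rwa [hu, Nat.mul_div_cancel_left _ hv] at hvc
    have hdvd : v ^ F ∣ (Algebra.norm ℤ Ω).natAbs := by
      have h1 : u ^ F * (Algebra.norm ℤ Ω).natAbs =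
          v ^ F * ((Algebra.norm ℤ π).natAbs * (Algebra.norm ℤ (Xc c)).natAbs) := by
        apply Nat.eq_of_mul_eq_mul_left (pow_pos hv F)
        calc v ^ F * (u ^ F * (Algebra.norm ℤ Ω).natAbs)
            = m ^ F * (Algebra.norm ℤ Ω).natAbs := by rw [hu, mul_pow, mul_assoc]
          _ = _ := by rw [← hprod]; ring
      have h2 : (v ^ F).Coprime (u ^ F) := Nat.Coprime.pow _ _ hvu
      exact h2.dvd_of_dvd_mul_left (Dvd.intro _ h1.symm)
    have hpos : 0 < (Algebra.norm ℤ Ω).natAbs :=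
      Int.natAbs_pos.mpr (Algebra.norm_ne_zero_iff.mpr hΩ0)
    exact_mod_cast Nat.le_of_dvd hpos hdvd
  have hΩK : (Ω : K) ≠ 0 := by simpa using hΩ0
  have hmain : ((n : ℕ) : ℝ) * (n.totient * v ^ 2) ≤
      v ^ 4 * 4 ^ P.card * ((n : ℕ) * ((n / r : ℕ) : ℝ)) := by
    calc ((n : ℕ) : ℝ) * (n.totient * v ^ 2)
        ≤ ((n : ℕ) : ℝ) * ∑ φ : K →ₐ[ℚ] ℂ, ‖φ (Ω : K)‖ ^ 2 := by
          rw [← hcardK]
          exact mul_le_mul_of_nonneg_left (card_mul_le_sum_norm_sq (Ω : K) hΩK hv hnormΩ)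
            (by positivity)
      _ = ∑ φ : K →ₐ[ℚ] ℂ, ‖φ (X : K)‖ ^ 2 * ‖φ (Ω : K)‖ ^ 2 := by
          rw [Finset.mul_sum]
          refine Finset.sum_congr rfl fun φ _ => ?_
          rw [hnormX φ]
      _ = ∑ φ : K →ₐ[ℚ] ℂ, (v : ℝ) ^ 4 * ‖φ (π : K)‖ ^ 2 * ‖φ (Xc c : K)‖ ^ 2 := by
          refine Finset.sum_congr rfl fun φ _ => ?_
          have h1 := congrArg (fun y : 𝓞 K => ‖φ (y : K)‖ ^ 2) hΩ
          simp only [map_mul, map_pow, map_natCast, norm_mul, norm_pow, Complex.norm_natCast] at h1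
          rw [← mul_pow, ← h1]
          ring
      _ ≤ ∑ φ : K →ₐ[ℚ] ℂ, (v : ℝ) ^ 4 * 4 ^ P.card * ‖φ (Xc c : K)‖ ^ 2 := by
          refine Finset.sum_le_sum fun φ _ => ?_
          have h1 : ‖φ (π : K)‖ ^ 2 ≤ 4 ^ P.card := by
            calc ‖φ (π : K)‖ ^ 2 ≤ (2 ^ P.card) ^ 2 :=
                  pow_le_pow_left₀ (norm_nonneg _) (hnormπ φ) 2
              _ = 4 ^ P.card := by rw [← pow_mul, mul_comm, pow_mul]; norm_num
          (clear hsq hcorr hvc hgood hr hrn hcop hz X hX X' hX' hXX' hX0 hTXc hc Ω hΩ hπ0 hΩ0 κ hκ hκinj hnormX hparts F hcardK hF hnormΩ hΩK; gcongr)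
      _ = v ^ 4 * 4 ^ P.card * ∑ φ : K →ₐ[ℚ] ℂ, ‖φ (Xc c : K)‖ ^ 2 := by
          rw [Finset.mul_sum]
      _ ≤ _ := mul_le_mul_of_nonneg_left hparts (by positivity)
  have hmain' : n * (n.totient * v ^ 2) ≤ v ^ 4 * 4 ^ P.card * (n * (n / r)) := by
    exact_mod_cast hmain
  have hfin : n.totient ≤ v ^ 2 * 4 ^ P.card * (n / r) := by
    apply Nat.le_of_mul_le_mul_left _ (show 0 < n * v ^ 2 by (clear * - hn0 hv; positivity))
    calc n * v ^ 2 * n.totient = n * (n.totient * v ^ 2) := by ring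
      _ ≤ _ := hmain'
      _ = n * v ^ 2 * (v ^ 2 * 4 ^ P.card * (n / r)) := by ring
  calc r * n.totient ≤ r * (v ^ 2 * 4 ^ P.card * (n / r)) := Nat.mul_le_mul_left _ hfin
    _ = 4 ^ P.card * v ^ 2 * (r * (n / r)) := by ring
    _ = 4 ^ P.card * v ^ 2 * n := by rw [Nat.mul_div_cancel' hrn]

end key

end Vale.Agent.P033
end
end

section

section

namespace Vale.Agent.P033

open Finset

theorem one_add_pow_modEq {N x : ℕ} (hx : N ∣ x * x) (i : ℕ) :
    (1 + x) ^ i ≡ 1 + i * x [MOD N] := by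
  induction i with
  | zero => simp; exact Nat.ModEq.refl _
  | succ i ih =>
    rw [pow_succ]
    calc (1 + x) ^ i * (1 + x) ≡ (1 + i * x) * (1 + x) [MOD N] := Nat.ModEq.mul_right _ ih
      _ = (1 + (i + 1) * x) + i * (x * x) := by ring
      _ ≡ (1 + (i + 1) * x) + 0 [MOD N] :=
        Nat.ModEq.add_left _ ((Nat.modEq_zero_iff_dvd).mpr (Dvd.dvd.mul_left hx i))
      _ = 1 + (i + 1) * x := by ring

theorem not_dvd_totient {q M : ℕ} (hq : q.Prime) (_hM : M ≠ 0) (hqM : ¬ q ∣ M)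
    (h : ∀ l ∈ M.primeFactors, ¬ q ∣ l - 1) : ¬ q ∣ M.totient := by
  rw [Nat.totient_eq_div_primeFactors_mul]
  intro hd
  rcases (Nat.Prime.dvd_mul hq).mp hd with h1 | h1
  · exact hqM (h1.trans (Nat.div_dvd_of_dvd (Nat.prod_primeFactors_dvd M)))
  · obtain ⟨l, hl, hql⟩ := (Prime.dvd_finsetProd_iff hq.prime _).mp h1
    exact h l hl hql

/-- `c` is prime to `q`. -/
theorem padic_val_aux {p q N1 : ℕ} (hp : p.Prime) (hq : q.Prime) (hpq : p ≠ q) (hq2 : q ≠ 2)
    (hN1 : N1 ≠ 0) (hqN1 : q ∣ N1)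
    (h : ∀ l ∈ N1.primeFactors, ¬ q ∣ l - 1) (hgood : ¬ p ^ (q - 1) ≡ 1 [MOD q ^ 2]) :
    ¬ q * q ^ N1.factorization q ∣ p ^ N1.totient - 1 := by
  have := Fact.mk hq
  set a := N1.factorization q with ha
  have ha1 : 1 ≤ a := (Nat.Prime.dvd_iff_one_le_factorization hq hN1).mp hqN1
  set M := N1 / q ^ a with hM
  have hN1M : N1 = q ^ a * M := (Nat.ordProj_mul_ordCompl_eq_self N1 q).symm
  have hM0 : M ≠ 0 := by rintro h0; rw [h0, mul_zero] at hN1M; exact hN1 hN1M
  have hqM : ¬ q ∣ M := Nat.not_dvd_ordCompl hq hN1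
  have hcop : (q ^ a).Coprime M := (Nat.coprime_ordCompl hq hN1).pow_left _
  have hMt : ¬ q ∣ M.totient := by
    apply not_dvd_totient hq hM0 hqM
    intro l hl
    apply h l
    exact Nat.primeFactors_mono (Dvd.intro_left _ hN1M.symm) hN1 hl
  have hE : N1.totient = (q - 1) * (q ^ (a - 1) * M.totient) := by
    conv_lhs => rw [hN1M]
    rw [Nat.totient_mul hcop, Nat.totient_prime_pow hq ha1]
    ring
  have hq1 : 1 < q := hq.one_lt
  have hpq' : ¬ q ∣ p := fun hd => hpq ((Nat.prime_dvd_prime_iff_eq hq hp).mp hd).symm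
  have hfermat : q ∣ p ^ (q - 1) - 1 := by
    have h1 : p ^ (q - 1) ≡ 1 [MOD q] := by
      have := Nat.ModEq.pow_totient (n := q) (x := p) ((Nat.coprime_primes hp hq).mpr hpq)
      rwa [Nat.totient_prime hq] at this
    exact (Nat.modEq_iff_dvd' (Nat.one_le_pow _ _ hp.pos)).mp h1.symm
  have hlt : 1 < p ^ (q - 1) := Nat.one_lt_pow (by omega) hp.one_lt
  have hn0 : q ^ (a - 1) * M.totient ≠ 0 := by
    have := Nat.totient_pos.mpr (Nat.pos_of_ne_zero hM0)
    have := hq.pos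
    (clear * - hq1 hM0; positivity)
  have hlte := padicValNat.pow_sub_pow (p := q) (hq.odd_of_ne_two hq2) hlt hfermat
    (fun hd => hpq' (hq.dvd_of_dvd_pow hd)) hn0
  rw [← pow_mul, ← hE, one_pow] at hlte
  have hv1 : padicValNat q (p ^ (q - 1) - 1) ≤ 1 := by
    by_contra hcon
    push Not at hcon
    apply hgood
    have h2 : q ^ 2 ∣ p ^ (q - 1) - 1 := by
      rw [padicValNat_dvd_iff_le (by omega)]
      omega
    exact ((Nat.modEq_iff_dvd' (Nat.one_le_pow _ _ hp.pos)).mpr h2).symm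
  have hv2 : padicValNat q (q ^ (a - 1) * M.totient) = a - 1 := by
    rw [padicValNat.mul (pow_ne_zero _ hq.ne_zero)
      (Nat.totient_pos.mpr (Nat.pos_of_ne_zero hM0)).ne', padicValNat.prime_pow,
      padicValNat.eq_zero_of_not_dvd hMt]
    simp
  intro hd
  rw [← pow_succ'] at hd
  have hlt2 : 1 < p ^ N1.totient := by
    apply Nat.one_lt_pow _ hp.one_lt
    exact (Nat.totient_pos.mpr (Nat.pos_of_ne_zero hN1)).ne'
  rw [padicValNat_dvd_iff_le (by omega)] at hd
  rw [hlte, hv2] at hd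
  omega

theorem exists_pow_modEq {m k p : ℕ} (hm : m ≠ 0) (hp : p.Prime) (hpm : p ∣ m)
    (hk : Squarefree k) (hkm : k ∣ m)
    (hk1 : ∀ q ∈ k.primeFactors, ∀ l ∈ m.primeFactors, ¬ q ∣ l - 1)
    (hgood : ∀ q ∈ k.primeFactors, q ≠ p → ¬ p ^ (q - 1) ≡ 1 [MOD q ^ 2]) :
    ∃ j, p ^ j ≡ 1 + m ^ 2 / k [MOD m ^ 2 / p ^ (m ^ 2).factorization p] := by
  have hk0 : k ≠ 0 := hk.ne_zero
  have hn0 : m ^ 2 ≠ 0 := pow_ne_zero 2 hm
  obtain ⟨s₀, hs₀⟩ := hkm
  have hkk : k * k ∣ m ^ 2 := by rw [sq]; exact Nat.mul_dvd_mul ⟨s₀, hs₀⟩ ⟨s₀, hs₀⟩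
  have hkn : k ∣ m ^ 2 := (Dvd.intro _ rfl).trans hkk
  set A := m ^ 2 / k with hA
  have hAk : m ^ 2 = A * k := (Nat.div_mul_cancel hkn).symm
  have hA0 : A ≠ 0 := by rintro h0; rw [h0, zero_mul] at hAk; exact hn0 hAk
  have hkA : k ∣ A := by
    obtain ⟨t, ht⟩ := hkk
    refine ⟨t, ?_⟩
    apply Nat.eq_of_mul_eq_mul_right (Nat.pos_of_ne_zero hk0)
    rw [← hAk, ht]; ring
  set N1 := A / p ^ A.factorization p with hN1
  set k' := k / p ^ k.factorization p with hk'
  have hN : m ^ 2 / p ^ (m ^ 2).factorization p = N1 * k' := by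
    rw [hAk, Nat.ordCompl_mul]
  rw [hN]
  have hN10 : N1 ≠ 0 := (Nat.ordCompl_pos p hA0).ne'
  have hk'0 : k' ≠ 0 := (Nat.ordCompl_pos p hk0).ne'
  have hk'N1 : k' ∣ N1 := Nat.ordCompl_dvd_ordCompl_of_dvd hkA p
  have hAN1 : A = N1 * p ^ A.factorization p := by
    rw [mul_comm]; exact (Nat.ordProj_mul_ordCompl_eq_self A p).symm
  have hpN1 : p.Coprime N1 := Nat.coprime_ordCompl hp hA0
  have hEuler : N1 ∣ p ^ N1.totient - 1 :=
    (Nat.modEq_iff_dvd' (Nat.one_le_pow _ _ hp.pos)).mp (Nat.ModEq.pow_totient hpN1).symm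
  obtain ⟨c, hc⟩ := hEuler
  have hpE : p ^ N1.totient = 1 + N1 * c := by
    have := Nat.one_le_pow N1.totient p hp.pos
    omega
  have hN1A : N1 ∣ A := Dvd.intro _ hAN1.symm
  have hAm : A ∣ m ^ 2 := Dvd.intro _ hAk.symm
  have hprimes : ∀ l ∈ N1.primeFactors, l ∈ m.primeFactors := by
    intro l hl
    have h1 := Nat.primeFactors_mono (hN1A.trans hAm) hn0 hl
    rwa [Nat.primeFactors_pow m (by norm_num)] at h1
  have hcop : c.Coprime k' := by
    rw [Nat.coprime_comm]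
    apply Nat.Coprime.symm
    apply Nat.coprime_of_dvd
    intro q hq hqc hqk'
    have hqk : q ∣ k := hqk'.trans (Nat.ordCompl_dvd k p)
    have hqmem : q ∈ k.primeFactors := Nat.mem_primeFactors.mpr ⟨hq, hqk, hk0⟩
    have hpq : p ≠ q := by
      rintro rfl
      exact Nat.not_dvd_ordCompl hp hk0 hqk'
    have hpmem : p ∈ m.primeFactors := Nat.mem_primeFactors.mpr ⟨hp, hpm, hm⟩
    have hq2 : q ≠ 2 := by
      rintro rfl
      apply hk1 2 hqmem p hpmem
      have hodd := hp.odd_of_ne_two hpq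
      obtain ⟨t, ht⟩ := hodd
      exact ⟨t, by (clear * - ht; omega)⟩
    apply padic_val_aux hp hq hpq hq2 hN10 (hqk'.trans hk'N1)
      (fun l hl => hk1 q hqmem l (hprimes l hl)) (hgood q hqmem hpq.symm)
    rw [hc, mul_comm q]
    exact Nat.mul_dvd_mul (Nat.ordProj_dvd N1 q) hqc
  -- choose `i`
  have : NeZero k' := ⟨hk'0⟩
  set i : ℕ := ((c : ZMod k')⁻¹ * (p ^ A.factorization p : ℕ)).val with hi
  have hic : i * c ≡ p ^ A.factorization p [MOD k'] := by
    rw [← ZMod.natCast_eq_natCast_iff]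
    rw [Nat.cast_mul, hi, ZMod.natCast_zmod_val]
    have h1 := ZMod.coe_mul_inv_eq_one c hcop
    calc (c : ZMod k')⁻¹ * ((p ^ A.factorization p : ℕ) : ZMod k') * (c : ZMod k')
        = ((c : ZMod k') * (c : ZMod k')⁻¹) * ((p ^ A.factorization p : ℕ) : ZMod k') := by ring
      _ = _ := by rw [h1, one_mul]
  refine ⟨N1.totient * i, ?_⟩
  rw [pow_mul, hpE]
  have hNdvd : N1 * k' ∣ (N1 * c) * (N1 * c) := by
    have h1 : N1 * k' ∣ N1 * N1 := Nat.mul_dvd_mul_left _ hk'N1
    exact h1.trans ⟨c * c, by ring⟩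
  calc (1 + N1 * c) ^ i ≡ 1 + i * (N1 * c) [MOD N1 * k'] := one_add_pow_modEq hNdvd i
    _ = 1 + N1 * (i * c) := by ring
    _ ≡ 1 + N1 * p ^ A.factorization p [MOD N1 * k'] :=
      Nat.ModEq.add_left _ (Nat.ModEq.mul_left' _ hic)
    _ = 1 + A := by rw [← hAN1]

end Vale.Agent.P033
end
end

section

section

namespace Vale.Agent.P033

open Finset

/-- The bad primes of `m` relative to `k`. -/
def badPrimes (m k : ℕ) : Finset ℕ :=
  m.primeFactors.filter (fun p => ∃ q ∈ k.primeFactors, q ≠ p ∧ p ^ (q - 1) ≡ 1 [MOD q ^ 2])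

/-- The bad part of `m` relative to `k`. -/
def badPart (m k : ℕ) : ℕ := ∏ p ∈ badPrimes m k, p ^ m.factorization p

theorem prod_subset_primeFactors_dvd {m : ℕ} (hm : m ≠ 0) {s : Finset ℕ} (hs : s ⊆ m.primeFactors) :
    (∏ p ∈ s, p ^ m.factorization p) ∣ m ∧
      (∏ p ∈ s, p ^ m.factorization p).Coprime (m / ∏ p ∈ s, p ^ m.factorization p) := by
  have h1 : (∏ p ∈ s, p ^ m.factorization p) * ∏ p ∈ m.primeFactors \ s, p ^ m.factorization p = m := by
    rw [mul_comm, Finset.prod_sdiff hs]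
    exact Nat.prod_factorization_pow_eq_self hm
  have hpos : 0 < ∏ p ∈ s, p ^ m.factorization p :=
    Finset.prod_pos fun p hp => pow_pos (Nat.prime_of_mem_primeFactors (hs hp)).pos _
  refine ⟨Dvd.intro _ h1, ?_⟩
  have h2 : m / ∏ p ∈ s, p ^ m.factorization p = ∏ p ∈ m.primeFactors \ s, p ^ m.factorization p :=
    Nat.div_eq_of_eq_mul_right hpos h1.symm
  rw [h2]
  apply Nat.Coprime.prod_left
  intro p hp
  apply Nat.Coprime.prod_right
  intro l hl
  apply Nat.Coprime.pow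
  rw [Finset.mem_sdiff] at hl
  rw [Nat.coprime_primes (Nat.prime_of_mem_primeFactors (hs hp))
    (Nat.prime_of_mem_primeFactors hl.1)]
  rintro rfl
  exact hl.2 hp

theorem badPart_dvd {m : ℕ} (hm : m ≠ 0) (k : ℕ) : badPart m k ∣ m :=
  (prod_subset_primeFactors_dvd hm (Finset.filter_subset _ _)).1

/-- Key inequality, natural number form. -/
theorem keyIneq_nat {m : ℕ} [NeZero m] {k : ℕ} (h : ZMod (m ^ 2) → ℤ)
    (hh : ∀ i, h i = 1 ∨ h i = -1)
    (hac : ∀ t : ZMod (m ^ 2), t ≠ 0 → ∑ i, h i * h (i + t) = 0)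
    (hk : Squarefree k) (hkm : k ∣ m)
    (hk1 : ∀ q ∈ k.primeFactors, ∀ l ∈ m.primeFactors, ¬ q ∣ l - 1) :
    k * (m ^ 2).totient ≤ 4 ^ k.primeFactors.card * (badPart m k) ^ 2 * m ^ 2 := by
  have hm : m ≠ 0 := NeZero.ne m
  have hkprod : ∏ p ∈ k.primeFactors, p = k := Nat.prod_primeFactors_of_squarefree hk
  have h1 := prod_subset_primeFactors_dvd hm (Finset.filter_subset
    (fun p => ∃ q ∈ k.primeFactors, q ≠ p ∧ p ^ (q - 1) ≡ 1 [MOD q ^ 2]) m.primeFactors)
  have h2 := key_ineq (n := m ^ 2) (m := m) rfl h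
    (fun i => by rcases hh i with h | h <;> rw [h] <;> norm_num) hac k.primeFactors
    (fun p hp => Nat.prime_of_mem_primeFactors hp) (by rw [hkprod]; exact hkm)
    (v := badPart m k) h1.1 h1.2 (by
      intro p hp hpm
      rw [hkprod]
      by_cases hbad : ∃ q ∈ k.primeFactors, q ≠ p ∧ p ^ (q - 1) ≡ 1 [MOD q ^ 2]
      · right
        apply Finset.dvd_prod_of_mem (fun p => p ^ m.factorization p)
        rw [badPrimes, Finset.mem_filter]
        exact ⟨Nat.mem_primeFactors.mpr ⟨hp, hpm, hm⟩, hbad⟩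
      · left
        push Not at hbad
        exact exists_pow_modEq hm hp hpm hk hkm hk1 hbad)
  rwa [hkprod] at h2

/-- Key inequality, real form. -/
theorem keyIneq (m k : ℕ) [NeZero m] (h : ZMod (m ^ 2) → ℤ)
    (hh : ∀ i, h i = 1 ∨ h i = -1)
    (hac : ∀ t : ZMod (m ^ 2), t ≠ 0 → ∑ i, h i * h (i + t) = 0)
    (hk : Squarefree k) (hkm : k ∣ m)
    (hk1 : ∀ q ∈ k.primeFactors, ∀ l ∈ m.primeFactors, ¬ q ∣ l - 1) :
    (k : ℝ) ≤ 4 ^ k.primeFactors.card * ((m ^ 2 : ℕ) / (Nat.totient (m ^ 2)) : ℝ) *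
      (∏ p ∈ m.primeFactors.filter
        (fun p => ∃ q ∈ k.primeFactors, q ≠ p ∧ p ^ (q - 1) ≡ 1 [MOD q ^ 2]),
        (p : ℝ) ^ m.factorization p) ^ 2 := by
  have h1 := keyIneq_nat h hh hac hk hkm hk1
  have hm : 0 < m := NeZero.pos m
  have hφ : (0 : ℝ) < (m ^ 2).totient := by
    exact_mod_cast Nat.totient_pos.mpr (pow_pos hm 2)
  have h2 : (∏ p ∈ m.primeFactors.filter
        (fun p => ∃ q ∈ k.primeFactors, q ≠ p ∧ p ^ (q - 1) ≡ 1 [MOD q ^ 2]),
        (p : ℝ) ^ m.factorization p) = (badPart m k : ℝ) := by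
    rw [badPart, badPrimes]; push_cast; rfl
  rw [h2]
  have h3 : (k : ℝ) * (m ^ 2).totient ≤ 4 ^ k.primeFactors.card * (badPart m k : ℝ) ^ 2 * ((m ^ 2 : ℕ) : ℝ) := by
    exact_mod_cast h1
  calc (k : ℝ) = (k : ℝ) * (m ^ 2).totient / (m ^ 2).totient := by (clear * - hm; field_simp)
    _ ≤ 4 ^ k.primeFactors.card * (badPart m k : ℝ) ^ 2 * ((m ^ 2 : ℕ) : ℝ) / (m ^ 2).totient := by
        (clear * - h3 hm; gcongr)
    _ = _ := by ring

end Vale.Agent.P033
end
end

section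

section

namespace Vale.Agent.P033

open Finset

theorem fin_corr {k : ℕ} {H : Matrix (Fin (k + 1)) (Fin (k + 1)) ℝ}
    (hH : H * H.transpose = ((k + 1 : ℕ) : ℝ) • (1 : Matrix (Fin (k + 1)) (Fin (k + 1)) ℝ))
    {g : Fin (k + 1) → ℝ} (hg : ∀ i j : Fin (k + 1), H i j = g (j - i))
    (s : Fin (k + 1)) (hs : s ≠ 0) : ∑ j, g j * g (j - s) = 0 := by
  have hrow := congrFun (congrFun hH 0) s
  rw [Matrix.mul_apply, Matrix.smul_apply, Matrix.one_apply, if_neg (Ne.symm hs), smul_zero] at hrow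
  rw [← hrow]
  refine Finset.sum_congr rfl fun j _ => ?_
  rw [Matrix.transpose_apply, hg, hg, sub_zero]

theorem reduce_aux {k : ℕ} {H : Matrix (Fin (k + 1)) (Fin (k + 1)) ℝ}
    (h1 : IsHadamard (k + 1) H) (h2 : IsCirculant (k + 1) H) :
    ∃ h : ZMod (k + 1) → ℤ, (∀ i, h i = 1 ∨ h i = -1) ∧
      ∀ t : ZMod (k + 1), t ≠ 0 → ∑ i, h i * h (i + t) = 0 := by
  classical
  obtain ⟨hpm, hH⟩ := h1
  obtain ⟨g, hg⟩ := h2
  have hg1 : ∀ x : Fin (k + 1), g x = 1 ∨ g x = -1 := by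
    intro x
    have := hpm 0 x
    rw [hg 0 x] at this
    simpa using this
  let h : Fin (k + 1) → ℤ := fun x => if g x = 1 then 1 else -1
  have hh : ∀ x : Fin (k + 1), ((h x : ℤ) : ℝ) = g x := by
    intro x
    simp only [h]
    rcases hg1 x with hx | hx
    · rw [if_pos hx, hx]; simp
    · rw [if_neg (by rw [hx]; norm_num), hx]; simp
  have hcor : ∀ t : Fin (k + 1), t ≠ 0 → ∑ i, h i * h (i + t) = 0 := by
    intro t ht
    have h3 := fin_corr hH hg (-t) (neg_ne_zero.mpr ht)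
    have h4 : ((∑ i, h i * h (i + t) : ℤ) : ℝ) = 0 := by
      rw [← h3]
      push_cast
      refine Finset.sum_congr rfl fun i _ => ?_
      rw [hh, hh, sub_neg_eq_add]
    exact_mod_cast h4
  refine ⟨h, ?_, fun t ht => hcor t ht⟩
  intro i
  change (if g i = 1 then (1 : ℤ) else -1) = 1 ∨ (if g i = 1 then (1 : ℤ) else -1) = -1
  split_ifs
  · exact Or.inl rfl
  · exact Or.inr rfl

theorem square_aux {n : ℕ} [NeZero n] (h : ZMod n → ℤ) (hh : ∀ i, h i = 1 ∨ h i = -1)
    (hac : ∀ t : ZMod n, t ≠ 0 → ∑ i, h i * h (i + t) = 0) :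
    (n : ℤ) = (∑ i, h i) ^ 2 := by
  classical
  have hsq : ∀ i, h i * h i = 1 := fun i => by rcases hh i with h | h <;> rw [h] <;> norm_num
  rw [sq, Finset.sum_mul_sum]
  have h1 : ∀ i : ZMod n, ∑ j, h i * h j = ∑ t, h i * h (i + t) := by
    intro i
    rw [← Equiv.sum_comp (Equiv.addLeft i)]
    rfl
  simp_rw [h1]
  rw [Finset.sum_comm]
  have h2 : ∀ t : ZMod n, ∑ i, h i * h (i + t) = if t = 0 then (n : ℤ) else 0 := by
    intro t
    split_ifs with ht
    · subst ht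
      simp [hsq, ZMod.card]
    · exact hac t ht
  simp_rw [h2]
  simp only [sum_ite_eq', mem_univ, ↓reduceIte]

/-- Reduction to sequences: an order of a circulant Hadamard matrix is a square `m ^ 2`, and there is
a sign sequence on `ZMod (m ^ 2)` with vanishing periodic autocorrelations. -/
theorem reduce {n : ℕ} (hn : IsCirculantHadamardOrder n) :
    ∃ m : ℕ, ∃ _ : NeZero m, n = m ^ 2 ∧ ∃ h : ZMod (m ^ 2) → ℤ,
      (∀ i, h i = 1 ∨ h i = -1) ∧ ∀ t : ZMod (m ^ 2), t ≠ 0 → ∑ i, h i * h (i + t) = 0 := by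
  obtain ⟨hn1, H, hH, hC⟩ := hn
  obtain ⟨k, rfl⟩ : ∃ k, n = k + 1 := ⟨n - 1, by omega⟩
  obtain ⟨h, hh, hac⟩ := reduce_aux hH hC
  have hsq := square_aux h hh hac
  set s := (∑ i, h i).natAbs with hs
  have hks : k + 1 = s ^ 2 := by
    have h1 : ((k + 1 : ℕ) : ℤ) = ((s ^ 2 : ℕ) : ℤ) := by
      rw [hsq, Nat.cast_pow, hs, Int.natCast_natAbs, sq_abs]
    exact_mod_cast h1
  have hs0 : s ≠ 0 := by
    intro h0
    rw [h0] at hks
    simp at hks
  have : NeZero s := ⟨hs0⟩
  refine ⟨s, this, hks, ?_⟩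
  clear_value s
  have key : ∀ (a b : ℕ) [NeZero a] [NeZero b], a = b →
      (∃ h : ZMod a → ℤ, (∀ i, h i = 1 ∨ h i = -1) ∧ ∀ t : ZMod a, t ≠ 0 → ∑ i, h i * h (i + t) = 0) →
      ∃ h : ZMod b → ℤ, (∀ i, h i = 1 ∨ h i = -1) ∧ ∀ t : ZMod b, t ≠ 0 → ∑ i, h i * h (i + t) = 0 := by
    intro a b _ _ hab
    subst hab
    rintro ⟨h, h1, h2⟩
    exact ⟨h, h1, fun t ht => by convert h2 t ht⟩
  exact key (k + 1) (s ^ 2) hks ⟨h, hh, hac⟩

end Vale.Agent.P033
end
end

section

section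

namespace Vale.Agent.P033

open Finset

/-- explicit bound for the local sum, once `z ≥ (log X)^41`. -/
lemma kappa_bound {L z : ℝ} (hL : 1 ≤ L) (hz : L ^ (41 : ℕ) ≤ z) :
    4 * L ^ 2 * z ^ (-(7 / 8) : ℝ) + 480 * L ^ 5 * z ^ (-(1 / 8) : ℝ)
      + (1 + L) * (Real.exp (2 * L * z ^ (-(1 / 2) : ℝ)) - 1) ≤ 600 := by
  have hL0 : 0 < L := by linarith
  have hLp : (0 : ℝ) < L ^ (41 : ℕ) := by positivity
  have hpow : ∀ a : ℝ, 0 ≤ a → z ^ (-a) ≤ L ^ (-(41 * a)) := by
    intro a ha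
    calc z ^ (-a) ≤ (L ^ (41 : ℕ)) ^ (-a) :=
          Real.rpow_le_rpow_of_nonpos hLp hz (by linarith)
      _ = L ^ (-(41 * a)) := by
          rw [← Real.rpow_natCast, ← Real.rpow_mul hL0.le]
          congr 1
          push_cast
          ring
  have h1 : L ^ 2 * z ^ (-(7 / 8) : ℝ) ≤ 1 := by
    calc L ^ 2 * z ^ (-(7 / 8) : ℝ) ≤ L ^ 2 * L ^ (-(41 * (7 / 8)) : ℝ) :=
          mul_le_mul_of_nonneg_left (hpow _ (by norm_num)) (by positivity)
      _ = L ^ (2 + -(41 * (7 / 8)) : ℝ) := by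
          rw [Real.rpow_add hL0]; norm_num
      _ ≤ 1 := Real.rpow_le_one_of_one_le_of_nonpos hL (by norm_num)
  have h2 : L ^ 5 * z ^ (-(1 / 8) : ℝ) ≤ 1 := by
    calc L ^ 5 * z ^ (-(1 / 8) : ℝ) ≤ L ^ 5 * L ^ (-(41 * (1 / 8)) : ℝ) :=
          mul_le_mul_of_nonneg_left (hpow _ (by norm_num)) (by positivity)
      _ = L ^ (5 + -(41 * (1 / 8)) : ℝ) := by
          rw [Real.rpow_add hL0]; norm_num
      _ ≤ 1 := Real.rpow_le_one_of_one_le_of_nonpos hL (by norm_num)
  have h3 : L ^ 2 * z ^ (-(1 / 2) : ℝ) ≤ 1 := by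
    calc L ^ 2 * z ^ (-(1 / 2) : ℝ) ≤ L ^ 2 * L ^ (-(41 * (1 / 2)) : ℝ) :=
          mul_le_mul_of_nonneg_left (hpow _ (by norm_num)) (by positivity)
      _ = L ^ (2 + -(41 * (1 / 2)) : ℝ) := by
          rw [Real.rpow_add hL0]; norm_num
      _ ≤ 1 := Real.rpow_le_one_of_one_le_of_nonpos hL (by norm_num)
  set u := z ^ (-(1 / 2) : ℝ) with hu
  have hu0 : 0 ≤ u := Real.rpow_nonneg (by linarith only [hz, hLp]) _
  have hLu : L * u ≤ 1 := by nlinarith only [hL, h3]
  -- exp (2 L u) - 1 ≤ 2 L u * e^2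
  have h4 : Real.exp (2 * L * u) - 1 ≤ 2 * L * u * 9 := by
    have h5 : Real.exp (2 * L * u) ≤ 9 := by
      calc Real.exp (2 * L * u) ≤ Real.exp 2 := Real.exp_le_exp.mpr (by nlinarith only [hLu])
        _ = Real.exp 1 * Real.exp 1 := by rw [← Real.exp_add]; norm_num
        _ ≤ 9 := by
          have := Real.exp_one_lt_d9
          have h0 := Real.exp_pos 1
          nlinarith only [this, h0]
    have h6 := Real.add_one_le_exp (-(2 * L * u))
    have h7 : Real.exp (2 * L * u) * Real.exp (-(2 * L * u)) = 1 := by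
      rw [← Real.exp_add]; simp
    have h8 : 0 < Real.exp (2 * L * u) := Real.exp_pos _
    have h9 : 0 ≤ 2 * L * u := by (clear * - hL hu0; positivity)
    -- exp x - 1 = exp x (1 - exp(-x)) ≤ exp x * x
    have h10 : Real.exp (2 * L * u) - 1 ≤ Real.exp (2 * L * u) * (2 * L * u) := by nlinarith only [h7, h6, h8]
    nlinarith only [h10, h5, h9]
  have h5 : (1 + L) * (Real.exp (2 * L * u) - 1) ≤ 36 := by
    have h6 : (1 + L) * (Real.exp (2 * L * u) - 1) ≤ (2 * L) * (2 * L * u * 9) := by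
      apply mul_le_mul (by linarith only [hL]) h4 _ (by positivity)
      have : 1 ≤ Real.exp (2 * L * u) := Real.one_le_exp (by (clear * - hL hu0; positivity))
      linarith only [this]
    nlinarith only [h3, h6]
  linarith

/-- The key dichotomy for a possible order `m ^ 2`. -/
lemma order_bound {m z b : ℕ} (hm : 0 < m) (hz : 2 ≤ z) (hb : b ^ 2 ∣ m)
    (hb2 : Squarefree (m / b ^ 2)) (hord : IsCirculantHadamardOrder (m ^ 2)) :
    (m : ℝ) ≤ 8 ^ m.primeFactors.card * (b : ℝ) ^ 6 *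
      (∏ p ∈ m.primeFactors.filter (fun p => p < z), (p : ℝ)) ^ 3 * (GG z m) ^ 26 := by
  obtain ⟨m', hm', heq, h, hh, hac⟩ := reduce hord
  have hmm : m = m' := by
    have := Nat.pow_left_injective (n := 2) (by norm_num) heq
    exact this
  subst hmm
  exact structure_bound m z b hm hz hb hb2
    (fun k hk hkm hk1 => keyIneq m k h hh hac hk hkm hk1)

end Vale.Agent.P033
end
end

section

section

namespace Vale.Agent.P033

open Finset Filter Topology

lemma eventually_L (C : ℝ) : ∀ᶠ L : ℝ in atTop, 1 ≤ L ∧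
    126 * L ^ (41 / 42 : ℝ) ≤ (1 / 21000) * L ∧
    (1 + L) * Real.exp 600 ≤ Real.exp ((1 / 20000) * L) ∧
    C * Real.exp ((9752 / 10000) * L) < Real.exp ((249 / 250) * L) := by
  have h1 : ∀ᶠ L : ℝ in atTop, 1 ≤ L := eventually_ge_atTop 1
  have h2 : ∀ᶠ L : ℝ in atTop, 126 * L ^ (41 / 42 : ℝ) ≤ (1 / 21000) * L := by
    have h := (tendsto_rpow_atTop (show (0 : ℝ) < 1 / 42 by norm_num)).eventually_ge_atTop
      (126 * 21000)
    filter_upwards [h, h1] with L hL hL1
    have h5 : L = L ^ (1 / 42 : ℝ) * L ^ (41 / 42 : ℝ) := by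
      rw [← Real.rpow_add (by linarith only [hL1])]
      norm_num
    have h6 : 0 ≤ L ^ (41 / 42 : ℝ) := by positivity
    calc 126 * L ^ (41 / 42 : ℝ) = (1 / 21000) * ((126 * 21000) * L ^ (41 / 42 : ℝ)) := by ring
      _ ≤ (1 / 21000) * (L ^ (1 / 42 : ℝ) * L ^ (41 / 42 : ℝ)) := by nlinarith only [hL, h6]
      _ = (1 / 21000) * L := by rw [← h5]
  have h3 : ∀ᶠ L : ℝ in atTop, (1 + L) * Real.exp 600 ≤ Real.exp ((1 / 20000) * L) := by
    have h := (isLittleO_pow_exp_pos_mul_atTop 1 (show (0 : ℝ) < 1 / 20000 by norm_num)).def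
      (show (0 : ℝ) < 1 / (2 * Real.exp 600) by positivity)
    filter_upwards [h, h1] with L hL hL1
    rw [pow_one, Real.norm_of_nonneg (by linarith only [hL1]), Real.norm_of_nonneg (by positivity)] at hL
    have h0 : 0 < Real.exp 600 := Real.exp_pos _
    calc (1 + L) * Real.exp 600 ≤ (2 * L) * Real.exp 600 := by nlinarith only [hL1, h0]
      _ ≤ (2 * (1 / (2 * Real.exp 600) * Real.exp ((1 / 20000) * L))) * Real.exp 600 := by nlinarith only [hL, h0]
      _ = Real.exp ((1 / 20000) * L) := by field_simp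
  have h4 : ∀ᶠ L : ℝ in atTop,
      C * Real.exp ((9752 / 10000) * L) < Real.exp ((249 / 250) * L) := by
    have h : Tendsto (fun L : ℝ => Real.exp ((1 / 50 : ℝ) * L)) atTop atTop :=
      Real.tendsto_exp_atTop.comp (tendsto_id.const_mul_atTop (by norm_num))
    filter_upwards [h.eventually_gt_atTop C, h1] with L hL hL1
    have h5 : Real.exp ((249 / 250) * L) =
        Real.exp ((1 / 50) * L) * Real.exp ((9752 / 10000) * L) * Real.exp ((8 / 10000) * L) := by
      rw [← Real.exp_add, ← Real.exp_add]; ring_nf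
    have h6 : 1 ≤ Real.exp ((8 / 10000) * L) := Real.one_le_exp (by linarith only [hL1])
    have h7 : 0 < Real.exp ((9752 / 10000) * L) := Real.exp_pos _
    rw [h5]
    calc C * Real.exp ((9752 / 10000) * L)
        < Real.exp ((1 / 50) * L) * Real.exp ((9752 / 10000) * L) :=
          mul_lt_mul_of_pos_right hL h7
      _ ≤ Real.exp ((1 / 50) * L) * Real.exp ((9752 / 10000) * L) * Real.exp ((8 / 10000) * L) := by
          apply le_mul_of_one_le_right (by positivity) h6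
  filter_upwards [h1, h2, h3, h4] with L a b c d
  exact ⟨a, b, c, d⟩

open scoped Classical in
theorem count_orders_eventually :
    ∀ᶠ X : ℕ in atTop,
      (((Finset.Icc 1 X).filter (fun m => IsCirculantHadamardOrder (m ^ 2))).card : ℝ)
        ≤ 5 * (X : ℝ) ^ (249 / 250 : ℝ) := by
  obtain ⟨C, hC1, hC⟩ := pow_omega_le 8 (by norm_num) (1 / 50) (by norm_num)
  have hL := (eventually_L C)
  have htend : Tendsto (fun X : ℕ => Real.log (X : ℝ)) atTop atTop :=
    Real.tendsto_log_atTop.comp tendsto_natCast_atTop_atTop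
  filter_upwards [htend.eventually hL, eventually_ge_atTop 2] with X hX hX2
  obtain ⟨hL1, hLa, hLb, hLc⟩ := hX
  set L := Real.log (X : ℝ) with hLdef
  have hXR : (0 : ℝ) < X := by exact_mod_cast (by omega : 0 < X)
  have hX1R : (1 : ℝ) ≤ X := by exact_mod_cast (by omega : 1 ≤ X)
  have hexp : ∀ a : ℝ, (X : ℝ) ^ a = Real.exp (a * L) := by
    intro a
    rw [Real.rpow_def_of_pos hXR, mul_comm]
  have e0 : (X : ℝ) = Real.exp (1 * L) := by rw [← hexp, Real.rpow_one]
  set z : ℕ := ⌈L ^ (41 : ℕ)⌉₊ + 1 with hz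
  have hz41 : L ^ (41 : ℕ) ≤ (z : ℝ) := by
    calc L ^ (41 : ℕ) ≤ (⌈L ^ (41 : ℕ)⌉₊ : ℝ) := Nat.le_ceil _
      _ ≤ (z : ℝ) := by rw [hz]; push_cast; linarith only []
  have hL41 : (1 : ℝ) ≤ L ^ (41 : ℕ) := one_le_pow₀ hL1
  have hz2 : 2 ≤ z := by
    have : 1 ≤ ⌈L ^ (41 : ℕ)⌉₊ := Nat.one_le_ceil_iff.mpr (by linarith only [hL41])
    omega
  have hzup : (z : ℝ) ≤ 3 * L ^ (41 : ℕ) := by
    have h1 : (⌈L ^ (41 : ℕ)⌉₊ : ℝ) < L ^ (41 : ℕ) + 1 := Nat.ceil_lt_add_one (by positivity)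
    rw [hz]; push_cast; linarith only [hL41, h1]
  set Sa := (Finset.Icc 1 X).filter (fun m : ℕ => (m : ℝ) ≤ (X : ℝ) ^ (249 / 250 : ℝ)) with hSa
  set Sb := (Finset.Icc 1 X).filter (fun m => ∃ b : ℕ, (X : ℝ) ^ (1 / 250 : ℝ) ≤ b ∧ b ^ 2 ∣ m) with hSb
  set Sc := (Finset.Icc 1 X).filter
      (fun m : ℕ => (X : ℝ) ^ (17 / 100 : ℝ) ≤ ∏ p ∈ m.primeFactors.filter (fun p => p < z), (p : ℝ)) with hSc
  set Sd := (Finset.Icc 1 X).filter (fun m => (X : ℝ) ^ (81 / 5000 : ℝ) ≤ GG z m) with hSd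
  have hsub : (Finset.Icc 1 X).filter (fun m => IsCirculantHadamardOrder (m ^ 2))
      ⊆ Sa ∪ (Sb ∪ (Sc ∪ Sd)) := by
    intro m hm
    rw [Finset.mem_filter] at hm
    obtain ⟨hmI, hord⟩ := hm
    have hmI' := Finset.mem_Icc.mp hmI
    by_contra hcon
    simp only [Finset.mem_union, not_or] at hcon
    obtain ⟨ha, hb, hc, hd⟩ := hcon
    rw [hSa, Finset.mem_filter, not_and] at ha
    rw [hSb, Finset.mem_filter, not_and] at hb
    rw [hSc, Finset.mem_filter, not_and] at hc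
    rw [hSd, Finset.mem_filter, not_and] at hd
    have ha' := not_le.mp (ha hmI)
    have hb' := hb hmI
    have hc' := not_le.mp (hc hmI)
    have hd' := not_le.mp (hd hmI)
    push Not at hb'
    obtain ⟨a, b, hab, hsf⟩ := Nat.sq_mul_squarefree m
    have hbpos : b ≠ 0 := by
      rintro rfl
      simp at hab
      omega
    have hbm : b ^ 2 ∣ m := ⟨a, hab.symm⟩
    have hma : m / b ^ 2 = a := by
      rw [← hab]
      exact Nat.mul_div_cancel_left a (by (clear * - hbpos; positivity))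
    have hbX : (b : ℝ) < (X : ℝ) ^ (1 / 250 : ℝ) := by
      by_contra h
      exact hb' b (not_lt.mp h) hbm
    have hkey := order_bound (z := z) (b := b) (by omega) hz2 hbm (by rw [hma]; exact hsf) hord
    have hω := hC m hmI'.1
    have hmX : (m : ℝ) ≤ X := by exact_mod_cast hmI'.2
    have hGnn : 0 ≤ GG z m := by
      unfold GG
      apply Finset.prod_nonneg
      intro p hp
      have := one_le_gw (z := z) (D := m.primeFactors.erase p) (p := p)
        (fun q hq => Nat.prime_of_mem_primeFactors (Finset.mem_of_mem_erase hq))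
        (Nat.prime_of_mem_primeFactors (Finset.mem_filter.mp hp).1).one_lt.le
      linarith only [this]
    have hfin : (m : ℝ) ≤ C * Real.exp ((9752 / 10000) * L) := by
      calc (m : ℝ) ≤ 8 ^ m.primeFactors.card * (b : ℝ) ^ 6 *
            (∏ p ∈ m.primeFactors.filter (fun p => p < z), (p : ℝ)) ^ 3 * (GG z m) ^ 26 := hkey
        _ ≤ (C * (X : ℝ) ^ (1 / 50 : ℝ)) * ((X : ℝ) ^ (1 / 250 : ℝ)) ^ 6 *
            ((X : ℝ) ^ (17 / 100 : ℝ)) ^ 3 * ((X : ℝ) ^ (81 / 5000 : ℝ)) ^ 26 := by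
            have e1 : (8 : ℝ) ^ m.primeFactors.card ≤ C * (X : ℝ) ^ (1 / 50 : ℝ) :=
              hω.trans (mul_le_mul_of_nonneg_left
                (Real.rpow_le_rpow (by (clear * -; positivity)) hmX (by norm_num)) (by linarith only [hC1]))
            have e2 : (b : ℝ) ^ 6 ≤ ((X : ℝ) ^ (1 / 250 : ℝ)) ^ 6 :=
              pow_le_pow_left₀ (by (clear * - hbpos; positivity)) hbX.le 6
            have e3 : (∏ p ∈ m.primeFactors.filter (fun p => p < z), (p : ℝ)) ^ 3
                ≤ ((X : ℝ) ^ (17 / 100 : ℝ)) ^ 3 :=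
              pow_le_pow_left₀ (by (clear * -; positivity)) hc'.le 3
            have e4 : (GG z m) ^ 26 ≤ ((X : ℝ) ^ (81 / 5000 : ℝ)) ^ 26 :=
              pow_le_pow_left₀ hGnn hd'.le 26
            apply mul_le_mul _ e4 (by (clear * -; positivity)) (by (clear * - hC1 hX2; positivity))
            apply mul_le_mul _ e3 (by (clear * -; positivity)) (by positivity)
            exact mul_le_mul e1 e2 (by (clear * - hbpos; positivity)) (by positivity)
        _ = C * Real.exp ((9752 / 10000) * L) := by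
            rw [hexp, hexp, hexp, hexp, ← Real.exp_nat_mul, ← Real.exp_nat_mul,
              ← Real.exp_nat_mul, mul_assoc, mul_assoc, mul_assoc, ← Real.exp_add,
              ← Real.exp_add, ← Real.exp_add]
            congr 2
            push_cast
            ring
    rw [hexp] at ha'
    linarith only [hLc, ha', hfin]
  -- cardinalities
  have hA : (Sa.card : ℝ) ≤ (X : ℝ) ^ (249 / 250 : ℝ) := by
    have h1 : Sa ⊆ Finset.Icc 1 ⌊(X : ℝ) ^ (249 / 250 : ℝ)⌋₊ := by
      intro m hm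
      rw [hSa, Finset.mem_filter, Finset.mem_Icc] at hm
      rw [Finset.mem_Icc]
      exact ⟨hm.1.1, Nat.le_floor hm.2⟩
    calc (Sa.card : ℝ) ≤ ((Finset.Icc 1 ⌊(X : ℝ) ^ (249 / 250 : ℝ)⌋₊).card : ℝ) := by
          exact_mod_cast Finset.card_le_card h1
      _ = (⌊(X : ℝ) ^ (249 / 250 : ℝ)⌋₊ : ℝ) := by simp only [Nat.card_Icc, add_tsub_cancel_right]
      _ ≤ (X : ℝ) ^ (249 / 250 : ℝ) := Nat.floor_le (by positivity)
  have hB : (Sb.card : ℝ) ≤ 2 * (X : ℝ) ^ (249 / 250 : ℝ) := by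
    have h1 := count_sq X ((X : ℝ) ^ (1 / 250 : ℝ)) (Real.one_le_rpow hX1R (by norm_num))
    have h2 : 2 * (X : ℝ) / (X : ℝ) ^ (1 / 250 : ℝ) = 2 * (X : ℝ) ^ (249 / 250 : ℝ) := by
      rw [mul_div_assoc]
      congr 1
      rw [div_eq_iff (by positivity), ← Real.rpow_add hXR]
      norm_num
    rw [h2] at h1
    convert h1 using 3
  have hCc : (Sc.card : ℝ) ≤ (X : ℝ) ^ (249 / 250 : ℝ) := by
    have h1 := count_rad X z (1 / 42) (by norm_num) (by norm_num)
      ((X : ℝ) ^ (17 / 100 : ℝ)) (by positivity)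
    refine h1.trans ?_
    have h2 : (z : ℝ) ^ (1 / 42 : ℝ) / (1 / 42) ≤ (1 / 21000) * L := by
      have h3 : (z : ℝ) ^ (1 / 42 : ℝ) ≤ 3 * L ^ (41 / 42 : ℝ) := by
        calc (z : ℝ) ^ (1 / 42 : ℝ) ≤ (3 * L ^ (41 : ℕ)) ^ (1 / 42 : ℝ) :=
              Real.rpow_le_rpow (by positivity) hzup (by norm_num)
          _ = (3 : ℝ) ^ (1 / 42 : ℝ) * L ^ (41 / 42 : ℝ) := by
              rw [Real.mul_rpow (by norm_num) (by positivity), ← Real.rpow_natCast,
                ← Real.rpow_mul (by linarith only [hL1])]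
              norm_num
          _ ≤ 3 * L ^ (41 / 42 : ℝ) := by
              apply mul_le_mul_of_nonneg_right _ (by positivity)
              calc (3 : ℝ) ^ (1 / 42 : ℝ) ≤ (3 : ℝ) ^ (1 : ℝ) :=
                    Real.rpow_le_rpow_of_exponent_le (by norm_num) (by norm_num)
                _ = 3 := by norm_num
      calc (z : ℝ) ^ (1 / 42 : ℝ) / (1 / 42) = 42 * (z : ℝ) ^ (1 / 42 : ℝ) := by ring
        _ ≤ 42 * (3 * L ^ (41 / 42 : ℝ)) := by linarith only [h3]
        _ = 126 * L ^ (41 / 42 : ℝ) := by ring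
        _ ≤ (1 / 21000) * L := hLa
    calc (X : ℝ) * ((X : ℝ) ^ (17 / 100 : ℝ)) ^ (-(1 / 42) : ℝ) *
          Real.exp ((z : ℝ) ^ (1 / 42 : ℝ) / (1 / 42))
        ≤ (X : ℝ) * ((X : ℝ) ^ (17 / 100 : ℝ)) ^ (-(1 / 42) : ℝ) *
          Real.exp ((1 / 21000) * L) :=
          mul_le_mul_of_nonneg_left (Real.exp_le_exp.mpr h2) (by positivity)
      _ = Real.exp (1 * L) * Real.exp ((17 / 100 * (-(1 / 42))) * L) * Real.exp ((1 / 21000) * L) := by
          rw [← Real.rpow_mul hXR.le, hexp]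
          nth_rewrite 1 [e0]
          rfl
      _ = (X : ℝ) ^ (249 / 250 : ℝ) := by
          rw [hexp, ← Real.exp_add, ← Real.exp_add]
          congr 1
          ring
  have hDd : (Sd.card : ℝ) ≤ (X : ℝ) ^ (249 / 250 : ℝ) := by
    have h1 := count_GG (X := X) (z := z) 600 (by
      intro D hD hDc
      refine (key_lemma_K hz2 hL1 D hD hDc).trans ?_
      exact kappa_bound hL1 hz41) ((X : ℝ) ^ (81 / 5000 : ℝ)) (Real.one_le_rpow hX1R (by norm_num))
    refine h1.trans ?_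
    calc (X : ℝ) * (1 + Real.log X) * Real.exp 600 * ((X : ℝ) ^ (81 / 5000 : ℝ)) ^ (-(1 / 4) : ℝ)
        = (X : ℝ) * ((1 + L) * Real.exp 600) * ((X : ℝ) ^ (81 / 5000 : ℝ)) ^ (-(1 / 4) : ℝ) := by
          rw [hLdef]; ring
      _ ≤ (X : ℝ) * Real.exp ((1 / 20000) * L) * ((X : ℝ) ^ (81 / 5000 : ℝ)) ^ (-(1 / 4) : ℝ) := by
          apply mul_le_mul_of_nonneg_right _ (by positivity)
          exact mul_le_mul_of_nonneg_left hLb hXR.le
      _ = Real.exp (1 * L) * Real.exp ((1 / 20000) * L) *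
            Real.exp ((81 / 5000 * (-(1 / 4))) * L) := by
          rw [← Real.rpow_mul hXR.le, hexp]
          nth_rewrite 1 [e0]
          rfl
      _ = (X : ℝ) ^ (249 / 250 : ℝ) := by
          rw [hexp, ← Real.exp_add, ← Real.exp_add]
          congr 1
          ring
  calc (((Finset.Icc 1 X).filter (fun m => IsCirculantHadamardOrder (m ^ 2))).card : ℝ)
      ≤ ((Sa ∪ (Sb ∪ (Sc ∪ Sd))).card : ℝ) := by exact_mod_cast Finset.card_le_card hsub
    _ ≤ ((Sa.card + (Sb.card + (Sc.card + Sd.card)) : ℕ) : ℝ) := by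
        have h1 := Finset.card_union_le Sa (Sb ∪ (Sc ∪ Sd))
        have h2 := Finset.card_union_le Sb (Sc ∪ Sd)
        have h3 := Finset.card_union_le Sc Sd
        exact_mod_cast (by (clear * - h1 h2 h3; omega))
    _ = (Sa.card : ℝ) + ((Sb.card : ℝ) + ((Sc.card : ℝ) + (Sd.card : ℝ))) := by push_cast; ring
    _ ≤ 5 * (X : ℝ) ^ (249 / 250 : ℝ) := by linarith only [hA, hB, hCc, hDd]

open scoped Classical in
/-- Number of `m ≤ X` such that `m ^ 2` is the order of a circulant Hadamard matrix. -/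
theorem count_orders_sq :
    ∃ C : ℝ, 0 < C ∧ ∀ X : ℕ,
      (((Finset.Icc 1 X).filter (fun m => IsCirculantHadamardOrder (m ^ 2))).card : ℝ)
        ≤ C * (X : ℝ) ^ (249 / 250 : ℝ) := by
  obtain ⟨X0, hX0⟩ := Filter.eventually_atTop.mp count_orders_eventually
  refine ⟨5 + X0, by positivity, ?_⟩
  intro X
  rcases Nat.lt_or_ge X X0 with h | h
  · rcases Nat.eq_zero_or_pos X with h0 | h0
    · subst h0
      simp only [Order.lt_one_iff, Icc_eq_empty_of_lt, filter_empty, card_empty, CharP.cast_eq_zero, ne_eq, div_eq_zero_iff, OfNat.ofNat_ne_zero, or_self, not_false_eq_true, Real.zero_rpow, mul_zero, Std.le_refl]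
    · have h1 : (1 : ℝ) ≤ (X : ℝ) ^ (249 / 250 : ℝ) :=
        Real.one_le_rpow (by exact_mod_cast h0) (by norm_num)
      have h2 : ((Finset.Icc 1 X).filter (fun m => IsCirculantHadamardOrder (m ^ 2))).card ≤ X := by
        calc _ ≤ (Finset.Icc 1 X).card := Finset.card_le_card (Finset.filter_subset _ _)
          _ = X := by simp only [Nat.card_Icc, add_tsub_cancel_right]
      calc (((Finset.Icc 1 X).filter (fun m => IsCirculantHadamardOrder (m ^ 2))).card : ℝ)
          ≤ (X : ℝ) := by exact_mod_cast h2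
        _ ≤ (X0 : ℝ) := by exact_mod_cast h.le
        _ ≤ (5 + X0) * 1 := by linarith only []
        _ ≤ (5 + X0) * (X : ℝ) ^ (249 / 250 : ℝ) := by
            apply mul_le_mul_of_nonneg_left h1 (by positivity)
  · refine (hX0 X h).trans ?_
    apply mul_le_mul_of_nonneg_right _ (by positivity)
    have : (0 : ℝ) ≤ X0 := by positivity
    linarith only []

open scoped Classical in
/-- Number of orders `n ≤ N` of circulant Hadamard matrices. -/
theorem count_orders :
    ∃ C : ℝ, 0 < C ∧ ∀ N : ℕ,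
      (((Finset.Icc 1 N).filter (fun n => IsCirculantHadamardOrder n)).card : ℝ)
        ≤ C * (N : ℝ) ^ (1 / 2 - 1 / 500 : ℝ) := by
  obtain ⟨C, hC0, hC⟩ := count_orders_sq
  refine ⟨C, hC0, ?_⟩
  intro N
  have h1 : ((Finset.Icc 1 N).filter (fun n => IsCirculantHadamardOrder n)).card
      ≤ ((Finset.Icc 1 (Nat.sqrt N)).filter (fun m => IsCirculantHadamardOrder (m ^ 2))).card := by
    have h2 : (Finset.Icc 1 N).filter (fun n => IsCirculantHadamardOrder n) ⊆
        ((Finset.Icc 1 (Nat.sqrt N)).filter (fun m => IsCirculantHadamardOrder (m ^ 2))).image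
          (fun m => m ^ 2) := by
      intro n hn
      rw [Finset.mem_filter, Finset.mem_Icc] at hn
      obtain ⟨m, hm, heq, _⟩ := reduce hn.2
      rw [Finset.mem_image]
      refine ⟨m, ?_, heq.symm⟩
      rw [Finset.mem_filter, Finset.mem_Icc]
      refine ⟨⟨Nat.one_le_iff_ne_zero.mpr hm.out, ?_⟩, by rw [← heq]; exact hn.2⟩
      rw [Nat.le_sqrt', ← heq]
      exact hn.1.2
    exact (Finset.card_le_card h2).trans Finset.card_image_le
  have h3 := hC (Nat.sqrt N)
  have h4 : ((Nat.sqrt N : ℕ) : ℝ) ≤ (N : ℝ) ^ (1 / 2 : ℝ) := by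
    rw [← Real.sqrt_eq_rpow]
    exact Real.nat_sqrt_le_real_sqrt
  calc (((Finset.Icc 1 N).filter (fun n => IsCirculantHadamardOrder n)).card : ℝ)
      ≤ (((Finset.Icc 1 (Nat.sqrt N)).filter (fun m => IsCirculantHadamardOrder (m ^ 2))).card : ℝ) := by
        exact_mod_cast h1
    _ ≤ C * ((Nat.sqrt N : ℕ) : ℝ) ^ (249 / 250 : ℝ) := h3
    _ ≤ C * ((N : ℝ) ^ (1 / 2 : ℝ)) ^ (249 / 250 : ℝ) := by
        apply mul_le_mul_of_nonneg_left _ hC0.le
        exact Real.rpow_le_rpow (by (clear * -; positivity)) h4 (by norm_num)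
    _ = C * (N : ℝ) ^ (1 / 2 - 1 / 500 : ℝ) := by
        rw [← Real.rpow_mul (by positivity)]
        norm_num

end Vale.Agent.P033
end
end
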